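import Vale.Agent.P141.H747.GridF

/-!
# P141, line (A), flow part: masses of a family on the planes of a shifted grid, at one `x0`

`f x0 k x y` : squared norms of a path family; `Q k i n m` : affected standard squares.

* `Ms` : mass of a standard square cut to the root; `sh_mass` : mass of a shifted square;
* `charge` : a number attached to the affected squares, summed over `x0`;
* `En`, `Bo`, `Cr` : numbers at one `x0` for the energies at every scale, for the changes of the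
  family itself and for the changes of another family on the tied squares; `en_le`, `bo_le`,
  `cr_le` and the sums over `x0` : `En_sum`, `Bo_sum`, `Cr_sum`.
-/

namespace Vale.Agent.P141.H900.Num

open Finset
open Vale.Agent.P141.PL (Pt iv ix mem_iv ix_ix)
open Vale.Agent.P141.H210 (two sum_two sum_tr_le sum_cell_le mem_two)
open Vale.Agent.P141.H747 (sft)

noncomputable section

open scoped Classical

/-! ### Cells -/

theorem sum_iv_iv {a N : ℕ} (h : a ≤ N) (R : ℤ) (f : ℤ → ℝ) :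
    ∑ n ∈ iv (N - a) R, ∑ x ∈ iv a n, f x = ∑ x ∈ iv N R, f x := by
  have hm : ∀ x ∈ iv N R, ix a x ∈ iv (N - a) R := by
    intro x hx
    rw [mem_iv] at hx ⊢
    rw [ix_ix, Nat.add_sub_cancel' h, hx]
  rw [← sum_fiberwise_of_maps_to hm]
  refine sum_congr rfl fun n hn => sum_congr ?_ fun _ _ => rfl
  ext x
  rw [mem_filter, mem_iv, mem_iv]
  constructor
  · intro hx
    refine ⟨?_, hx⟩
    rw [mem_iv] at hn
    rw [← hn, ← hx, ix_ix, Nat.add_sub_cancel' h]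
  · exact fun hx => hx.2

theorem ix_add_mem (k : ℕ) (x a : ℤ) : ix k (x + a) ∈ two (ix k x + ix k a) := by
  rw [mem_two]
  unfold ix
  have hp : (0 : ℤ) < 2 ^ k := by positivity
  have h1 := Int.emod_add_mul_ediv x (2 ^ k)
  have h2 := Int.emod_add_mul_ediv a (2 ^ k)
  have r1 := Int.emod_nonneg x hp.ne'
  have r2 := Int.emod_lt_of_pos x hp
  have r3 := Int.emod_nonneg a hp.ne'
  have r4 := Int.emod_lt_of_pos a hp
  have e : x + a = (x % 2 ^ k + a % 2 ^ k) + 2 ^ k * (x / 2 ^ k + a / 2 ^ k) := by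
    linear_combination -h1 - h2
  rw [e, Int.add_mul_ediv_left _ _ hp.ne']
  have h3 : (x % 2 ^ k + a % 2 ^ k) / 2 ^ k = 0 ∨ (x % 2 ^ k + a % 2 ^ k) / 2 ^ k = 1 := by
    by_cases h : x % 2 ^ k + a % 2 ^ k < 2 ^ k
    · left
      exact Int.ediv_eq_zero_of_lt (by omega) h
    · right
      rw [Int.ediv_eq_iff_of_pos hp]
      constructor <;> omega
  rcases h3 with h3 | h3 <;> rw [h3] <;> omega

theorem sum_two_le (I : Finset ℤ) (c : ℤ) {g : ℤ → ℝ} (hg : ∀ n, 0 ≤ g n) :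
    ∑ n ∈ I, (if n ∈ two c then g n else 0) ≤ ∑ n ∈ two c, g n := by
  rw [← sum_filter]
  refine sum_le_sum_of_subset_of_nonneg (fun n hn => (mem_filter.1 hn).2) fun n _ _ => hg n

/-! ### Masses -/

/-- mass of the standard square `(p, q)` of scale `k`, cut to the root -/
def Ms (N : ℕ) (R S : ℤ) (f : ℤ → ℤ → ℝ) (k : ℕ) (p q : ℤ) : ℝ :=
  if p ∈ iv (N - k) R ∧ q ∈ iv (N - k) S then ∑ x ∈ iv k p, ∑ y ∈ iv k q, f x y else 0

theorem Ms_nonneg {N : ℕ} {R S : ℤ} {f : ℤ → ℤ → ℝ} (hf : ∀ x y, 0 ≤ f x y) (k : ℕ) (p q : ℤ) :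
    0 ≤ Ms N R S f k p q := by
  unfold Ms
  split_ifs
  · exact sum_nonneg fun x _ => sum_nonneg fun y _ => hf x y
  · exact le_rfl

theorem sft_nonneg {N : ℕ} {R S a b : ℤ} {f : ℤ → ℤ → ℝ} (hf : ∀ x y, 0 ≤ f x y) (x y : ℤ) :
    0 ≤ sft N R S a b f x y := by
  unfold H747.sft
  split_ifs
  · exact hf _ _
  · exact le_rfl

/-- **the mass of a shifted square** -/
theorem sh_mass {N k : ℕ} (hk : k ≤ N) (R S a b n m : ℤ) {f : ℤ → ℤ → ℝ}
    (hf : ∀ x y, 0 ≤ f x y) :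
    ∑ x ∈ iv k n, ∑ y ∈ iv k m, sft N R S a b f x y ≤
      ∑ i ∈ two (n + ix k a), ∑ j ∈ two (m + ix k b), Ms N R S f k i j := by
  set H : ℤ → ℤ → ℝ := fun x y => if ix N x = R ∧ ix N y = S then f x y else 0 with hH
  have hH0 : ∀ x y, 0 ≤ H x y := fun x y => by
    rw [hH]
    beta_reduce
    split_ifs
    exacts [hf x y, le_rfl]
  have h1 : ∀ x, ∑ y ∈ iv k m, H (x + a) (y + b) ≤
      ∑ j ∈ two (m + ix k b), ∑ y ∈ iv k j, H (x + a) y :=
    fun x => sum_cell_le k m b (g := fun y => H (x + a) y) fun y => hH0 _ _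
  have h2 := sum_cell_le k n a (g := fun x => ∑ j ∈ two (m + ix k b), ∑ y ∈ iv k j, H x y)
    fun x => sum_nonneg fun j _ => sum_nonneg fun y _ => hH0 _ _
  refine (sum_le_sum fun x _ => h1 x).trans (h2.trans (le_of_eq ?_))
  refine sum_congr rfl fun i _ => ?_
  rw [sum_comm]
  refine sum_congr rfl fun j _ => ?_
  unfold Ms
  split_ifs with h
  · refine sum_congr rfl fun x hx => sum_congr rfl fun y hy => ?_
    rw [hH]
    beta_reduce
    rw [if_pos]
    rw [H210.ix_root hk hx, H210.ix_root hk hy]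
    exact ⟨mem_iv.1 h.1, mem_iv.1 h.2⟩
  · refine sum_eq_zero fun x hx => sum_eq_zero fun y hy => ?_
    rw [hH]
    beta_reduce
    rw [if_neg]
    rw [H210.ix_root hk hx, H210.ix_root hk hy]
    exact fun e => h ⟨mem_iv.2 e.1, mem_iv.2 e.2⟩

/-- the shifted function over any root -/
theorem sh_root (N : ℕ) (R S a b : ℤ) (I J : Finset ℤ) {f : ℤ → ℤ → ℝ} (hf : ∀ x y, 0 ≤ f x y) :
    ∑ x ∈ I, ∑ y ∈ J, sft N R S a b f x y ≤ ∑ x ∈ iv N R, ∑ y ∈ iv N S, f x y := by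
  have h1 : ∀ x, ∑ y ∈ J, sft N R S a b f x y ≤
      if x + a ∈ iv N R then ∑ y ∈ iv N S, f (x + a) y else 0 := by
    intro x
    split_ifs with h
    · refine le_trans (le_of_eq ?_) (sum_tr_le J (iv N S) b (h := fun y => f (x + a) y)
        fun y => hf _ _)
      refine sum_congr rfl fun y _ => ?_
      unfold H747.sft
      simp only [mem_iv]
      rw [mem_iv] at h
      simp only [h, true_and]
    · refine le_of_eq (sum_eq_zero fun y _ => ?_)
      unfold H747.sft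
      rw [if_neg]
      exact fun e => h (mem_iv.2 e.1)
  refine (sum_le_sum fun x _ => h1 x).trans ?_
  exact sum_tr_le I (iv N R) a (h := fun x => ∑ y ∈ iv N S, f x y)
    fun x => sum_nonneg fun y _ => hf _ _

/-! ### The data -/

/-- squared norms of a path family with its affected standard squares -/
structure Dat (N : ℕ) (R S : ℤ) (f : ℤ → ℕ → ℤ → ℤ → ℝ) (Q : ℕ → ℤ → ℤ → ℤ → Prop)
    (B P : ℝ) : Prop where
  B0 : 0 ≤ B
  f0 : ∀ x0 k x y, 0 ≤ f x0 k x y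
  ag : ∀ x0, ∀ k < N, ∀ n m, ¬ Q k (ix k x0) n m → ∀ x ∈ iv k n, ∀ y ∈ iv k m,
    f x0 (k + 1) x y = f x0 k x y
  ms : ∀ k ≤ N, ∀ j, j = k ∨ (j = k + 1 ∧ k < N) → ∀ i : ℤ, ∀ n ∈ iv (N - k) R,
    ∀ m ∈ iv (N - k) S, ∑ x0 ∈ iv k i, ∑ x ∈ iv k n, ∑ y ∈ iv k m, f x0 j x y ≤ B * 8 ^ k
  pk : ∀ x0, ∑ k ∈ range (N + 1), ∑ n ∈ iv (N - k) R, ∑ m ∈ iv (N - k) S,
    (if Q k (ix k x0) n m then (4 : ℝ) ^ k else 0) ≤ P * 4 ^ N

theorem Dat.ms' {N : ℕ} {R S : ℤ} {f : ℤ → ℕ → ℤ → ℤ → ℝ} {Q : ℕ → ℤ → ℤ → ℤ → Prop} {B P : ℝ}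
    (h : Dat N R S f Q B P) {k : ℕ} (hk : k ≤ N) {j : ℕ} (hj : j = k ∨ (j = k + 1 ∧ k < N))
    (i p q : ℤ) : ∑ x0 ∈ iv k i, Ms N R S (f x0 j) k p q ≤ B * 8 ^ k := by
  unfold Ms
  split_ifs with hr
  · exact h.ms k hk j hj i p hr.1 q hr.2
  · rw [sum_const_zero]
    have := h.B0
    positivity

/-- **A number attached to the affected squares, summed over `x0`.** -/
theorem charge {N : ℕ} {R S : ℤ} {Q : ℕ → ℤ → ℤ → ℤ → Prop} {P : ℝ}
    (pk : ∀ x0, ∑ k ∈ range (N + 1), ∑ n ∈ iv (N - k) R, ∑ m ∈ iv (N - k) S,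
      (if Q k (ix k x0) n m then (4 : ℝ) ^ k else 0) ≤ P * 4 ^ N)
    (G : ℤ → ℕ → ℤ → ℤ → ℝ) {C : ℝ} (hC : 0 ≤ C)
    (hG : ∀ k < N, ∀ i p q, ∑ x0 ∈ iv k i, G x0 k p q ≤ C * 8 ^ k) (t : ℤ) :
    ∑ x0 ∈ iv N t, ∑ k ∈ range N, ∑ p ∈ iv (N - k) R, ∑ q ∈ iv (N - k) S,
      (if Q k (ix k x0) p q then G x0 k p q else 0) ≤ C * P * 8 ^ N := by
  have h1 : ∑ x0 ∈ iv N t, ∑ k ∈ range N, ∑ p ∈ iv (N - k) R, ∑ q ∈ iv (N - k) S,
      (if Q k (ix k x0) p q then G x0 k p q else 0) ≤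
      ∑ x0 ∈ iv N t, ∑ k ∈ range N, ∑ p ∈ iv (N - k) R, ∑ q ∈ iv (N - k) S,
      C * (if Q k (ix k x0) p q then (4 : ℝ) ^ k else 0) := by
    rw [sum_comm, sum_comm (s := iv N t)]
    refine sum_le_sum fun k hk => ?_
    have hk' : k < N := mem_range.1 hk
    rw [← sum_iv_iv hk'.le t, ← sum_iv_iv hk'.le t]
    refine sum_le_sum fun i _ => ?_
    rw [sum_comm, sum_comm (s := iv k i)]
    refine sum_le_sum fun p _ => ?_
    rw [sum_comm, sum_comm (s := iv k i)]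
    refine sum_le_sum fun q _ => ?_
    have e1 : ∀ (g : ℤ → ℝ), ∑ x0 ∈ iv k i, (if Q k (ix k x0) p q then g x0 else 0) =
        if Q k i p q then ∑ x0 ∈ iv k i, g x0 else 0 := by
      intro g
      split_ifs with h
      · refine sum_congr rfl fun x0 hx => ?_
        rw [mem_iv.1 hx, if_pos h]
      · refine sum_eq_zero fun x0 hx => ?_
        rw [mem_iv.1 hx, if_neg h]
    rw [e1, ← mul_sum, e1]
    split_ifs
    · refine (hG k hk' i p q).trans (le_of_eq ?_)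
      rw [sum_const, PL.card_iv, nsmul_eq_mul]
      push_cast
      have : (8 : ℝ) ^ k = 2 ^ k * 4 ^ k := by rw [← mul_pow]; norm_num
      rw [this]
    · rw [mul_zero]
  refine h1.trans ?_
  have h2 : ∀ x0 ∈ iv N t, ∑ k ∈ range N, ∑ p ∈ iv (N - k) R, ∑ q ∈ iv (N - k) S,
      C * (if Q k (ix k x0) p q then (4 : ℝ) ^ k else 0) ≤ C * (P * 4 ^ N) := by
    intro x0 _
    have h3 := pk x0
    rw [sum_range_succ] at h3
    have h4 : 0 ≤ ∑ n ∈ iv (N - N) R, ∑ m ∈ iv (N - N) S,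
        (if Q N (ix N x0) n m then (4 : ℝ) ^ N else 0) := by
      refine sum_nonneg fun _ _ => sum_nonneg fun _ _ => ?_
      split_ifs
      · positivity
      · exact le_rfl
    simp only [← mul_sum]
    exact mul_le_mul_of_nonneg_left (by linarith) hC
  refine (sum_le_sum h2).trans (le_of_eq ?_)
  rw [sum_const, PL.card_iv, nsmul_eq_mul]
  push_cast
  have : (8 : ℝ) ^ N = 2 ^ N * 4 ^ N := by rw [← mul_pow]; norm_num
  rw [this]
  ring

/-! ### The numbers -/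

section num

variable (N : ℕ) (R S : ℤ) (f : ℤ → ℕ → ℤ → ℤ → ℝ) (Q : ℕ → ℤ → ℤ → ℤ → Prop)

/-- energy at every scale -/
def En (x0 : ℤ) : ℝ := ∑ x ∈ iv N R, ∑ y ∈ iv N S, f x0 N x y +
  ∑ k ∈ range N, ∑ p ∈ iv (N - k) R, ∑ q ∈ iv (N - k) S,
    (if Q k (ix k x0) p q then Ms N R S (f x0 k) k p q else 0)

/-- sixteen masses around the affected square, in letters of the shifts `a`, `b` -/
def G16 (g : ℤ → ℤ → ℝ) (a b : ℤ) (k : ℕ) (p q : ℤ) : ℝ :=
  ∑ n ∈ two (p - ix k a - 1), ∑ m ∈ two (q - ix k b - 1),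
    ∑ i ∈ two (n + ix k a), ∑ j ∈ two (m + ix k b), Ms N R S g k i j

/-- mass on the changed squares of the shifted family -/
def Bo (a b x0 : ℤ) : ℝ :=
  ∑ k ∈ range N, ∑ p ∈ iv (N - k) R, ∑ q ∈ iv (N - k) S,
    (if Q k (ix k x0) p q then G16 N R S (f x0 (k + 1)) a b k p q else 0)

end num

section num2

variable {N : ℕ} {R S : ℤ} {f : ℤ → ℕ → ℤ → ℤ → ℝ} {Q : ℕ → ℤ → ℤ → ℤ → Prop} {B P : ℝ}

/-- **Energies at every scale, standard grid.** -/
theorem en_std (h : Dat N R S f Q B P) (x0 : ℤ) {k : ℕ} (hk : k ≤ N) :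
    ∑ x ∈ iv N R, ∑ y ∈ iv N S, f x0 k x y ≤ En N R S f Q x0 := by
  have hM : ∀ j p q, 0 ≤ (if Q j (ix j x0) p q then Ms N R S (f x0 j) j p q else 0) := by
    intro j p q
    split_ifs
    · exact Ms_nonneg (h.f0 x0 j) j p q
    · exact le_rfl
  have key : ∀ d, ∀ k, k + d = N → ∑ x ∈ iv N R, ∑ y ∈ iv N S, f x0 k x y ≤
      ∑ x ∈ iv N R, ∑ y ∈ iv N S, f x0 N x y +
      ∑ j ∈ Ico k N, ∑ p ∈ iv (N - j) R, ∑ q ∈ iv (N - j) S,
        (if Q j (ix j x0) p q then Ms N R S (f x0 j) j p q else 0) := by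
    intro d
    induction d with
    | zero =>
      intro k hk
      have : k = N := by omega
      subst this
      simp
    | succ d ih =>
      intro k hk
      have hkN : k < N := by omega
      have h1 := ih (k + 1) (by omega)
      rw [sum_eq_sum_Ico_succ_bot hkN]
      have h2 : ∑ x ∈ iv N R, ∑ y ∈ iv N S, f x0 k x y ≤
          ∑ x ∈ iv N R, ∑ y ∈ iv N S, f x0 (k + 1) x y +
          ∑ p ∈ iv (N - k) R, ∑ q ∈ iv (N - k) S,
            (if Q k (ix k x0) p q then Ms N R S (f x0 k) k p q else 0) := by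
        have e : ∀ g : ℤ → ℤ → ℝ, ∑ x ∈ iv N R, ∑ y ∈ iv N S, g x y =
            ∑ p ∈ iv (N - k) R, ∑ q ∈ iv (N - k) S, ∑ x ∈ iv k p, ∑ y ∈ iv k q, g x y := by
          intro g
          rw [← sum_iv_iv hkN.le R]
          refine sum_congr rfl fun p _ => ?_
          rw [sum_comm]
          rw [← sum_iv_iv hkN.le S]
          refine sum_congr rfl fun q _ => ?_
          rw [sum_comm]
        rw [e, e, ← sum_add_distrib]
        refine sum_le_sum fun p hp => ?_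
        rw [← sum_add_distrib]
        refine sum_le_sum fun q hq => ?_
        split_ifs with hQ
        · have h3 : 0 ≤ ∑ x ∈ iv k p, ∑ y ∈ iv k q, f x0 (k + 1) x y :=
            sum_nonneg fun x _ => sum_nonneg fun y _ => h.f0 _ _ _ _
          unfold Ms
          rw [if_pos ⟨hp, hq⟩]
          linarith
        · rw [add_zero]
          refine le_of_eq (sum_congr rfl fun x hx => sum_congr rfl fun y hy => ?_)
          exact (h.ag x0 k hkN p q hQ x hx y hy).symm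
      linarith
  refine (key (N - k) k (by omega)).trans ?_
  unfold En
  refine add_le_add le_rfl ?_
  refine sum_le_sum_of_subset_of_nonneg ?_ fun j _ _ => sum_nonneg fun p _ =>
    sum_nonneg fun q _ => hM j p q
  intro j hj
  rw [mem_Ico] at hj
  exact mem_range.2 hj.2

/-- **Energies at every scale on the shifted grid, any root.** -/
theorem en_le (h : Dat N R S f Q B P) (x0 : ℤ) {k : ℕ} (hk : k ≤ N) (a b : ℤ)
    (I J : Finset ℤ) :
    ∑ x ∈ I, ∑ y ∈ J, sft N R S a b (f x0 k) x y ≤ En N R S f Q x0 :=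
  (sh_root N R S a b I J (h.f0 x0 k)).trans (en_std h x0 hk)

/-- **The sum over `x0` of the energies.** -/
theorem En_sum (h : Dat N R S f Q B P) (t : ℤ) :
    ∑ x0 ∈ iv N t, En N R S f Q x0 ≤ B * (P + 1) * 8 ^ N := by
  unfold En
  rw [sum_add_distrib]
  have h1 : ∑ x0 ∈ iv N t, ∑ x ∈ iv N R, ∑ y ∈ iv N S, f x0 N x y ≤ B * 8 ^ N := by
    refine h.ms N le_rfl N (Or.inl rfl) t R ?_ S ?_ <;>
    · rw [Nat.sub_self, mem_iv]
      simp [ix]
  have h2 := charge h.pk (fun x0 k p q => Ms N R S (f x0 k) k p q) h.B0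
    (fun k hk i p q => h.ms' hk.le (Or.inl rfl) i p q) t
  beta_reduce at h2
  linarith

/-- the position of a change -/
theorem ch_pos {E : Type*} [Zero E] {N k : ℕ} (hk : k ≤ N) {R S a b : ℤ} {F F' : ℤ → ℤ → E}
    {Qk : ℤ → ℤ → Prop}
    (hag : ∀ n m, ¬ Qk n m → ∀ x ∈ iv k n, ∀ y ∈ iv k m, F' x y = F x y) {n m : ℤ}
    (h : ∃ x ∈ iv k n, ∃ y ∈ iv k m, sft N R S a b F' x y ≠ sft N R S a b F x y) :
    ∃ p ∈ iv (N - k) R, ∃ q ∈ iv (N - k) S, Qk p q ∧ p ∈ two (n + ix k a) ∧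
      q ∈ two (m + ix k b) := by
  obtain ⟨x, hx, y, hy, hne⟩ := h
  unfold H747.sft at hne
  have hr : ix N (x + a) = R ∧ ix N (y + b) = S := by
    by_contra hr
    rw [if_neg hr, if_neg hr] at hne
    exact hne rfl
  rw [if_pos hr, if_pos hr] at hne
  refine ⟨ix k (x + a), ?_, ix k (y + b), ?_, ?_, ?_, ?_⟩
  · rw [mem_iv, ix_ix, Nat.add_sub_cancel' hk]
    exact hr.1
  · rw [mem_iv, ix_ix, Nat.add_sub_cancel' hk]
    exact hr.2
  · by_contra hQ
    exact hne (hag _ _ hQ _ (mem_iv.2 rfl) _ (mem_iv.2 rfl))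
  · rw [← mem_iv.1 hx]
    exact ix_add_mem k x a
  · rw [← mem_iv.1 hy]
    exact ix_add_mem k y b

/-- charging the changed squares to the affected ones -/
theorem chg_le {I J RP RO : Finset ℤ} {Chp Qk : ℤ → ℤ → Prop} {h : ℤ → ℤ → ℝ}
    (h0 : ∀ n m, 0 ≤ h n m) (u v : ℤ → ℤ → ℤ)
    (hc : ∀ n m, Chp n m → ∃ p ∈ RP, ∃ q ∈ RO, Qk p q ∧ p ∈ two (u n m) ∧ q ∈ two (v n m)) :
    ∑ n ∈ I, ∑ m ∈ J, (if Chp n m then h n m else 0) ≤
      ∑ p ∈ RP, ∑ q ∈ RO, (if Qk p q then ∑ n ∈ I, ∑ m ∈ J,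
        (if p ∈ two (u n m) ∧ q ∈ two (v n m) then h n m else 0) else 0) := by
  have h1 : ∀ n m, (if Chp n m then h n m else 0) ≤ ∑ p ∈ RP, ∑ q ∈ RO,
      (if Qk p q then (if p ∈ two (u n m) ∧ q ∈ two (v n m) then h n m else 0) else 0) := by
    intro n m
    have hn : ∀ p q, 0 ≤ (if Qk p q then
        (if p ∈ two (u n m) ∧ q ∈ two (v n m) then h n m else 0) else 0) := by
      intro p q
      have := h0 n m
      split_ifs <;> first | exact this | exact le_rfl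
    split_ifs with hch
    · obtain ⟨p, hp, q, hq, hQ, hpu, hqv⟩ := hc n m hch
      have e : h n m = (if Qk p q then
          (if p ∈ two (u n m) ∧ q ∈ two (v n m) then h n m else 0) else 0) := by
        rw [if_pos hQ, if_pos ⟨hpu, hqv⟩]
      refine le_trans (le_of_eq e) ?_
      refine le_trans (single_le_sum (f := fun q => if Qk p q then
        (if p ∈ two (u n m) ∧ q ∈ two (v n m) then h n m else 0) else 0) (fun q _ => hn p q) hq) ?_
      exact single_le_sum (f := fun p => ∑ q ∈ RO, if Qk p q then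
        (if p ∈ two (u n m) ∧ q ∈ two (v n m) then h n m else 0) else 0)
        (fun p _ => sum_nonneg fun q _ => hn p q) hp
    · exact sum_nonneg fun p _ => sum_nonneg fun q _ => hn p q
  refine (sum_le_sum fun n _ => sum_le_sum fun m _ => h1 n m).trans (le_of_eq ?_)
  have e1 : ∀ n, ∑ m ∈ J, ∑ p ∈ RP, ∑ q ∈ RO,
      (if Qk p q then (if p ∈ two (u n m) ∧ q ∈ two (v n m) then h n m else 0) else 0) =
      ∑ p ∈ RP, ∑ q ∈ RO, ∑ m ∈ J,
      (if Qk p q then (if p ∈ two (u n m) ∧ q ∈ two (v n m) then h n m else 0) else 0) := by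
    intro n
    rw [sum_comm]
    exact sum_congr rfl fun p _ => sum_comm
  simp only [e1]
  rw [sum_comm]
  refine sum_congr rfl fun p _ => ?_
  rw [sum_comm]
  refine sum_congr rfl fun q _ => ?_
  split_ifs
  · rfl
  · exact sum_eq_zero fun n _ => sum_eq_zero fun m _ => rfl


/-- two choices of each variable -/
theorem two_sum (I J : Finset ℤ) (c : ℤ) (d : ℤ → ℤ) {h : ℤ → ℤ → ℝ} (h0 : ∀ n m, 0 ≤ h n m) :
    ∑ n ∈ I, ∑ m ∈ J, (if n ∈ two c ∧ m ∈ two (d n) then h n m else 0) ≤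
      ∑ n ∈ two c, ∑ m ∈ two (d n), h n m := by
  have h1 : ∀ n, ∑ m ∈ J, (if n ∈ two c ∧ m ∈ two (d n) then h n m else 0) =
      if n ∈ two c then ∑ m ∈ J, (if m ∈ two (d n) then h n m else 0) else 0 := by
    intro n
    split_ifs with hn
    · refine sum_congr rfl fun m _ => ?_
      simp only [hn, true_and]
    · refine sum_eq_zero fun m _ => ?_
      rw [if_neg]
      exact fun e => hn e.1
  simp only [h1]
  refine (sum_two_le I c (g := fun n => ∑ m ∈ J, (if m ∈ two (d n) then h n m else 0))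
    fun n => sum_nonneg fun m _ => ?_).trans ?_
  · split_ifs
    exacts [h0 n m, le_rfl]
  · exact sum_le_sum fun n _ => sum_two_le J (d n) fun m => h0 n m

/-- **The mass on the changed squares of the shifted family**, one scale. -/
theorem bo_one (h : Dat N R S f Q B P) (x0 : ℤ) {k : ℕ} (hk : k < N) (a b : ℤ) (I J : Finset ℤ)
    {Chp : ℤ → ℤ → Prop} (hc : ∀ n m, Chp n m → ∃ p ∈ iv (N - k) R, ∃ q ∈ iv (N - k) S,
      Q k (ix k x0) p q ∧ p ∈ two (n + ix k a) ∧ q ∈ two (m + ix k b)) :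
    ∑ n ∈ I, ∑ m ∈ J, (if Chp n m then ∑ x ∈ iv k n, ∑ y ∈ iv k m,
      sft N R S a b (f x0 (k + 1)) x y else 0) ≤
      ∑ p ∈ iv (N - k) R, ∑ q ∈ iv (N - k) S,
        (if Q k (ix k x0) p q then G16 N R S (f x0 (k + 1)) a b k p q else 0) := by
  have h0 := h.f0 x0 (k + 1)
  have hh : ∀ n m, 0 ≤ ∑ i ∈ two (n + ix k a), ∑ j ∈ two (m + ix k b),
      Ms N R S (f x0 (k + 1)) k i j := fun n m =>
    sum_nonneg fun i _ => sum_nonneg fun j _ => Ms_nonneg h0 k i j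
  have h1 : ∀ n m, (if Chp n m then ∑ x ∈ iv k n, ∑ y ∈ iv k m,
      sft N R S a b (f x0 (k + 1)) x y else 0) ≤
      (if Chp n m then ∑ i ∈ two (n + ix k a), ∑ j ∈ two (m + ix k b),
        Ms N R S (f x0 (k + 1)) k i j else 0) := by
    intro n m
    split_ifs
    · exact sh_mass hk.le R S a b n m h0
    · exact le_rfl
  refine (sum_le_sum fun n _ => sum_le_sum fun m _ => h1 n m).trans ?_
  refine (chg_le hh (fun n _ => n + ix k a) (fun _ m => m + ix k b) hc).trans ?_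
  refine sum_le_sum fun p _ => sum_le_sum fun q _ => ?_
  split_ifs
  · unfold G16
    refine le_trans (le_of_eq ?_) (two_sum I J (p - ix k a - 1) (fun _ => q - ix k b - 1) hh)
    refine sum_congr rfl fun n _ => sum_congr rfl fun m _ => ?_
    have e : (p ∈ two (n + ix k a) ∧ q ∈ two (m + ix k b)) ↔
        (n ∈ two (p - ix k a - 1) ∧ m ∈ two (q - ix k b - 1)) := by
      simp only [mem_two]
      omega
    simp only [e]
  · exact le_rfl

/-- **The sum over `x0` of the changed masses.** -/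
theorem Bo_sum (h : Dat N R S f Q B P) (a b t : ℤ) :
    ∑ x0 ∈ iv N t, Bo N R S f Q a b x0 ≤ 16 * B * P * 8 ^ N := by
  have hB := h.B0
  unfold Bo
  refine charge h.pk (fun x0 k p q => G16 N R S (f x0 (k + 1)) a b k p q)
    (by positivity : (0 : ℝ) ≤ 16 * B) (fun k hk i p q => ?_) t
  unfold G16
  simp only [sum_two, sum_add_distrib]
  have g := fun p q => h.ms' hk.le (Or.inr ⟨rfl, hk⟩) i p q
  have hm := fun p q => g p q
  linarith [hm (p - ix k a - 1 + ix k a) (q - ix k b - 1 + ix k b),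
    hm (p - ix k a - 1 + ix k a) (q - ix k b - 1 + ix k b + 1),
    hm (p - ix k a - 1 + ix k a + 1) (q - ix k b - 1 + ix k b),
    hm (p - ix k a - 1 + ix k a + 1) (q - ix k b - 1 + ix k b + 1),
    hm (p - ix k a - 1 + ix k a) (q - ix k b - 1 + 1 + ix k b),
    hm (p - ix k a - 1 + ix k a) (q - ix k b - 1 + 1 + ix k b + 1),
    hm (p - ix k a - 1 + ix k a + 1) (q - ix k b - 1 + 1 + ix k b),
    hm (p - ix k a - 1 + ix k a + 1) (q - ix k b - 1 + 1 + ix k b + 1),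
    hm (p - ix k a - 1 + 1 + ix k a) (q - ix k b - 1 + ix k b),
    hm (p - ix k a - 1 + 1 + ix k a) (q - ix k b - 1 + ix k b + 1),
    hm (p - ix k a - 1 + 1 + ix k a + 1) (q - ix k b - 1 + ix k b),
    hm (p - ix k a - 1 + 1 + ix k a + 1) (q - ix k b - 1 + ix k b + 1),
    hm (p - ix k a - 1 + 1 + ix k a) (q - ix k b - 1 + 1 + ix k b),
    hm (p - ix k a - 1 + 1 + ix k a) (q - ix k b - 1 + 1 + ix k b + 1),
    hm (p - ix k a - 1 + 1 + ix k a + 1) (q - ix k b - 1 + 1 + ix k b),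
    hm (p - ix k a - 1 + 1 + ix k a + 1) (q - ix k b - 1 + 1 + ix k b + 1)]

end num2

/-! ### Changes of another family on the tied squares -/

section tie

variable (N : ℕ) (R S : ℤ) (f : ℤ → ℕ → ℤ → ℤ → ℝ) (Qc : ℕ → ℤ → ℤ → ℤ → Prop)

/-- sixteen masses at the tied square: `P` the cell of the common variable, `O` the other cell of
the affected square, `c` the plane, `b` the shift of the common variable, `a` of the other variable
of `f`, `w` of the other variable of the affected square -/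
def T16 (g : ℤ → ℤ → ℝ) (a b w : ℤ) (k : ℕ) (c P O : ℤ) : ℝ :=
  ∑ m ∈ two (P - ix k b - 1), ∑ n ∈ two (c - m + ix k w - O),
    ∑ i ∈ two (n + ix k a), ∑ j ∈ two (m + ix k b), Ms N R S g k i j

/-- mass on the squares tied to the affected squares of another family; `T` the root of the other
variable of the affected square -/
def Cr (T a b w : ℤ) (c : ℤ → ℕ → ℤ) (x0 : ℤ) : ℝ :=
  ∑ k ∈ range N, ∑ p ∈ iv (N - k) S, ∑ o ∈ iv (N - k) T,
    (if Qc k (ix k x0) p o then T16 N R S (f x0 (k + 1)) a b w k (c x0 k) p o else 0)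

end tie

section tie2

variable {N : ℕ} {R S : ℤ} {f : ℤ → ℕ → ℤ → ℤ → ℝ} {Q : ℕ → ℤ → ℤ → ℤ → Prop} {B P : ℝ}
  {Qc : ℕ → ℤ → ℤ → ℤ → Prop} {P' : ℝ}

theorem T16_nonneg {g : ℤ → ℤ → ℝ} (hg : ∀ x y, 0 ≤ g x y) (a b w : ℤ) (k : ℕ) (c p o : ℤ) :
    0 ≤ T16 N R S g a b w k c p o :=
  sum_nonneg fun _ _ => sum_nonneg fun _ _ => sum_nonneg fun _ _ => sum_nonneg fun _ _ =>
    Ms_nonneg hg _ _ _

/-- **The mass on the squares tied to the changed squares of the other family**, one scale. -/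
theorem cr_one (h : Dat N R S f Q B P) (x0 : ℤ) {k : ℕ} (hk : k < N) (T a b w c : ℤ)
    (I J : Finset ℤ) {Chp : ℤ → ℤ → Prop}
    (hc : ∀ m n, Chp m n → ∃ p ∈ iv (N - k) S, ∃ o ∈ iv (N - k) T,
      Qc k (ix k x0) p o ∧ p ∈ two (m + ix k b) ∧ o ∈ two (c - m - n + ix k w)) :
    ∑ m ∈ J, ∑ n ∈ I, (if Chp m n then ∑ x ∈ iv k n, ∑ y ∈ iv k m,
      sft N R S a b (f x0 (k + 1)) x y else 0) ≤
      ∑ p ∈ iv (N - k) S, ∑ o ∈ iv (N - k) T,
        (if Qc k (ix k x0) p o then T16 N R S (f x0 (k + 1)) a b w k c p o else 0) := by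
  have h0 := h.f0 x0 (k + 1)
  have hh : ∀ m n, 0 ≤ ∑ i ∈ two (n + ix k a), ∑ j ∈ two (m + ix k b),
      Ms N R S (f x0 (k + 1)) k i j := fun m n =>
    sum_nonneg fun i _ => sum_nonneg fun j _ => Ms_nonneg h0 k i j
  have h1 : ∀ m n, (if Chp m n then ∑ x ∈ iv k n, ∑ y ∈ iv k m,
      sft N R S a b (f x0 (k + 1)) x y else 0) ≤
      (if Chp m n then ∑ i ∈ two (n + ix k a), ∑ j ∈ two (m + ix k b),
        Ms N R S (f x0 (k + 1)) k i j else 0) := by
    intro m n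
    split_ifs
    · exact sh_mass hk.le R S a b n m h0
    · exact le_rfl
  refine (sum_le_sum fun m _ => sum_le_sum fun n _ => h1 m n).trans ?_
  refine (chg_le hh (fun m _ => m + ix k b) (fun m n => c - m - n + ix k w) hc).trans ?_
  refine sum_le_sum fun p _ => sum_le_sum fun o _ => ?_
  split_ifs
  · unfold T16
    refine le_trans (le_of_eq ?_) (two_sum J I (p - ix k b - 1) (fun m => c - m + ix k w - o) hh)
    refine sum_congr rfl fun m _ => sum_congr rfl fun n _ => ?_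
    have e : (p ∈ two (m + ix k b) ∧ o ∈ two (c - m - n + ix k w)) ↔
        (m ∈ two (p - ix k b - 1) ∧ n ∈ two (c - m + ix k w - o)) := by
      simp only [mem_two]
      omega
    simp only [e]
  · exact le_rfl

theorem T16_sum (h : Dat N R S f Q B P) {k : ℕ} (hk : k < N) (i a b w c p o : ℤ) :
    ∑ x0 ∈ iv k i, T16 N R S (f x0 (k + 1)) a b w k c p o ≤ 16 * B * 8 ^ k := by
  have hm := fun p q => h.ms' hk.le (Or.inr ⟨rfl, hk⟩) i p q
  unfold T16
  rw [sum_comm]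
  have h2 : ∀ m n, ∑ x0 ∈ iv k i, ∑ i' ∈ two (n + ix k a), ∑ j ∈ two (m + ix k b),
      Ms N R S (f x0 (k + 1)) k i' j ≤ 4 * (B * 8 ^ k) := by
    intro m n
    rw [sum_comm]
    have h3 : ∀ i' , ∑ x0 ∈ iv k i, ∑ j ∈ two (m + ix k b),
        Ms N R S (f x0 (k + 1)) k i' j ≤ 2 * (B * 8 ^ k) := by
      intro i'
      rw [sum_comm, sum_two]
      linarith [hm i' (m + ix k b), hm i' (m + ix k b + 1)]
    rw [sum_two]
    linarith [h3 (n + ix k a), h3 (n + ix k a + 1)]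
  have h4 : ∀ m, ∑ x0 ∈ iv k i, ∑ n ∈ two (c - m + ix k w - o), ∑ i' ∈ two (n + ix k a),
      ∑ j ∈ two (m + ix k b), Ms N R S (f x0 (k + 1)) k i' j ≤ 8 * (B * 8 ^ k) := by
    intro m
    rw [sum_comm, sum_two]
    linarith [h2 m (c - m + ix k w - o), h2 m (c - m + ix k w - o + 1)]
  rw [sum_two]
  linarith [h4 (p - ix k b - 1), h4 (p - ix k b - 1 + 1)]

/-- **The sum over `x0` of the tied masses.** -/
theorem Cr_sum (h : Dat N R S f Q B P) {T : ℤ}
    (pk : ∀ x0, ∑ k ∈ range (N + 1), ∑ n ∈ iv (N - k) S, ∑ m ∈ iv (N - k) T,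
      (if Qc k (ix k x0) n m then (4 : ℝ) ^ k else 0) ≤ P' * 4 ^ N)
    (a b w : ℤ) {c : ℤ → ℕ → ℤ} (hc : ∀ k i, ∃ c0, ∀ x0 ∈ iv k i, c x0 k ∈ two c0) (t : ℤ) :
    ∑ x0 ∈ iv N t, Cr N R S f Qc T a b w c x0 ≤ 32 * B * P' * 8 ^ N := by
  have hB := h.B0
  unfold Cr
  refine charge pk (fun x0 k p o => T16 N R S (f x0 (k + 1)) a b w k (c x0 k) p o)
    (by positivity : (0 : ℝ) ≤ 32 * B) (fun k hk i p o => ?_) t
  obtain ⟨c0, hc0⟩ := hc k i
  have h1 : ∀ x0 ∈ iv k i, T16 N R S (f x0 (k + 1)) a b w k (c x0 k) p o ≤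
      T16 N R S (f x0 (k + 1)) a b w k c0 p o + T16 N R S (f x0 (k + 1)) a b w k (c0 + 1) p o := by
    intro x0 hx
    have g0 := T16_nonneg (N := N) (R := R) (S := S) (h.f0 x0 (k + 1)) a b w k c0 p o
    have g1 := T16_nonneg (N := N) (R := R) (S := S) (h.f0 x0 (k + 1)) a b w k (c0 + 1) p o
    rcases mem_two.1 (hc0 x0 hx) with e | e <;> rw [e] <;> linarith
  refine (sum_le_sum h1).trans ?_
  rw [sum_add_distrib]
  linarith [T16_sum h hk i a b w c0 p o, T16_sum h hk i a b w (c0 + 1) p o]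

/-- the planes of the grid at the points of an `x0`-cell -/
theorem plane_two (W j : ℤ) (k : ℕ) (i : ℤ) : ∃ c0, ∀ x0 ∈ iv k i, ix k (W - x0) - j ∈ two c0 := by
  refine ⟨ix k W - i - 1 - j, fun x0 hx => ?_⟩
  have h1 := ix_add_mem k (W - x0) x0
  rw [sub_add_cancel, mem_iv.1 hx, mem_two] at h1
  rw [mem_two]
  omega

end tie2

end

end Vale.Agent.P141.H900.Num
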