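import Vale.Agent.P141.H505.SkelStack1
import Vale.Agent.P141.H677.FDb
import Vale.Agent.P141.H747.CapG
import Vale.Agent.P141.H900.NumMass

/-!
# P141, line (A), flow part: `NumA` and `NumB` of the stack for the families on a shifted plane

* `psd_form` : a cap as a property of the quadratic form; `cap_tr` : transposition of a cap;
* `datA`, `datB` : the data of `NumMass` for `A` and `b` of `FDs`; `pkC`, `chC` : the affected
  squares of `C`;
* `numA_TF`, `numB_TF` : all fields of `H505.Sk1.NumA`, `H505.Sk1.NumB` at every `x0` (the variation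
  of the slot against `b` is one number), with the sums over `x0`.
-/

namespace Vale.Agent.P141.H900.Num

open Finset Matrix
open Vale.Agent.P075 (Ix val)
open Vale.Agent.P141.PL (Pt iv ix mem_iv ix_ix cx)
open Vale.Agent.P141.PL.H315 (Tri)
open Vale.Agent.P141.H48 (BSl sst)
open Vale.Agent.P141.H210 (two mem_two)
open Vale.Agent.P141.H747 (sft shA shB shC sft_swap capS_sft)
open Vale.Agent.P141.H576 (QD QD_pack Dd_sst agree_kD)
open Vale.Agent.P141.H205 (CapS)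
open Vale.Agent.P141.H103 (PA un QW GW)
open Vale.Agent.P141.H505.Sk1 (Ch NumA NumB)
open Vale.Agent.P141.H677.Sk (FamA FamV FDs)
open Vale.Agent.P141.H795 (ys)

noncomputable section

open scoped Classical

set_option linter.unusedSectionVars false

/-! ### Caps -/

/-- a cap as a property of the quadratic form -/
theorem psd_form {ρ : Type*} [Fintype ρ] [DecidableEq ρ] {X : Matrix ρ ρ ℝ} (hX : Xᵀ = X) {c : ℝ}
    (h : ∀ w : ρ → ℝ, w ⬝ᵥ X *ᵥ w ≤ c * (w ⬝ᵥ w)) :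
    (c • (1 : Matrix ρ ρ ℝ) - X).PosSemidef := by
  refine Matrix.PosSemidef.of_dotProduct_mulVec_nonneg ?_ ?_
  · rw [Matrix.IsHermitian, conjTranspose_eq_transpose_of_trivial, transpose_sub, transpose_smul,
      transpose_one, hX]
  · intro w
    rw [star_trivial, sub_mulVec, smul_mulVec, one_mulVec, dotProduct_sub, dotProduct_smul,
      smul_eq_mul]
    linarith [h w]

/-- transposition of a cap -/
theorem cap_tr {α β : Type*} (Pf : Finset α) (Yf : Finset β) (T : α → β → ℝ) {C : ℝ} (hC : 0 ≤ C)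
    (h : ∀ v : β → ℝ, ∑ p ∈ Pf, (∑ y ∈ Yf, v y * T p y) ^ 2 ≤ C * ∑ y ∈ Yf, v y ^ 2)
    (w : α → ℝ) : ∑ y ∈ Yf, (∑ p ∈ Pf, w p * T p y) ^ 2 ≤ C * ∑ p ∈ Pf, w p ^ 2 := by
  set v : β → ℝ := fun y => ∑ p ∈ Pf, w p * T p y with hv
  set S : ℝ := ∑ y ∈ Yf, v y ^ 2 with hS
  have hS0 : 0 ≤ S := sum_nonneg fun _ _ => sq_nonneg _
  have hW0 : 0 ≤ ∑ p ∈ Pf, w p ^ 2 := sum_nonneg fun _ _ => sq_nonneg _
  have e1 : S = ∑ p ∈ Pf, w p * ∑ y ∈ Yf, v y * T p y := by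
    rw [hS]
    have : ∀ y ∈ Yf, v y ^ 2 = ∑ p ∈ Pf, v y * (w p * T p y) := by
      intro y _
      rw [← mul_sum, sq]
    rw [sum_congr rfl this, sum_comm]
    refine sum_congr rfl fun p _ => ?_
    rw [mul_sum]
    exact sum_congr rfl fun y _ => by ring
  have h1 : S ^ 2 ≤ (∑ p ∈ Pf, w p ^ 2) * (C * S) := by
    have h2 := sum_mul_sq_le_sq_mul_sq Pf w fun p => ∑ y ∈ Yf, v y * T p y
    rw [← e1] at h2
    exact h2.trans (mul_le_mul_of_nonneg_left (h v) hW0)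
  show S ≤ C * ∑ p ∈ Pf, w p ^ 2
  rcases hS0.eq_or_lt with h0 | h0
  · rw [← h0]
    positivity
  · have h3 : S * S ≤ S * (C * ∑ p ∈ Pf, w p ^ 2) := by nlinarith
    exact le_of_mul_le_mul_left h3 h0

/-- a cap of squares gives a cap of rectangles, in the transposed direction -/
theorem cap_rect {κ : Type*} [Fintype κ] {F : ℤ → ℤ → κ → ℝ} {c : ℝ} (hc : 0 ≤ c) {k : ℕ}
    (h : ∀ n m, CapS c k k F n m) {a : ℕ} (hka : k ≤ a) (n m : ℤ) (w : ℤ → κ → ℝ) :
    ∑ y ∈ iv a n, (∑ x ∈ iv k m, ∑ l, w x l * F x y l) ^ 2 ≤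
      c * (2 ^ a * 2 ^ k) * ∑ x ∈ iv k m, ∑ l, w x l ^ 2 := by
  have h1 : ∀ i, ∑ y ∈ iv k i, (∑ x ∈ iv k m, ∑ l, w x l * F x y l) ^ 2 ≤
      c * (2 ^ k * 2 ^ k) * ∑ x ∈ iv k m, ∑ l, w x l ^ 2 := by
    intro i
    have h2 := cap_tr (iv k m ×ˢ (univ : Finset κ)) (iv k i)
      (fun (p : ℤ × κ) y => F p.1 y p.2) (C := c * (2 ^ k * 2 ^ k)) (by positivity) (fun v => by
        have h3 := h m i v
        rw [sum_product]
        exact h3) (fun p => w p.1 p.2)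
    simp only [sum_product] at h2
    exact h2
  have e : ∑ y ∈ iv a n, (∑ x ∈ iv k m, ∑ l, w x l * F x y l) ^ 2 =
      ∑ i ∈ iv (a - k) n, ∑ y ∈ iv k i, (∑ x ∈ iv k m, ∑ l, w x l * F x y l) ^ 2 :=
    (sum_iv_iv hka n fun y => (∑ x ∈ iv k m, ∑ l, w x l * F x y l) ^ 2).symm
  rw [e]
  refine (sum_le_sum fun i _ => h1 i).trans (le_of_eq ?_)
  rw [sum_const, PL.card_iv, nsmul_eq_mul]
  push_cast
  have e2 : (2 : ℝ) ^ a = 2 ^ (a - k) * 2 ^ k := by rw [← pow_add, Nat.sub_add_cancel hka]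
  rw [e2]
  ring

/-- the matrix cap of `A`, rectangles -/
theorem capPA {A : ℤ → ℤ → ℝ} {c : ℝ} (hc : 0 ≤ c) {k : ℕ}
    (h : ∀ n m, CapS c k k (un fun z y => A y z) n m) {a : ℕ} (hka : k ≤ a) (n m : ℤ) :
    (c • (1 : Matrix (Ix k) (Ix k) ℝ) - PA A k a n m).PosSemidef := by
  refine psd_form (H103.PA_symm A k a n m) fun w => ?_
  set W : ℤ → Unit → ℝ := fun z _ => ∑ j : Ix k, if z = 2 ^ k * m + val k j then w j else 0 with hW
  have hval : ∀ j : Ix k, W (2 ^ k * m + val k j) () = w j := by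
    intro j
    rw [hW]
    beta_reduce
    rw [Finset.sum_eq_single j]
    · rw [if_pos rfl]
    · intro b _ hb
      rw [if_neg]
      intro e
      apply hb
      have : val k j = val k b := by
        have := add_left_cancel e
        exact_mod_cast this
      exact (PL.H804.val_inj k this).symm
    · intro h'
      exact absurd (mem_univ j) h'
  have h1 := cap_rect hc h hka n m W
  have e1 : ∀ f : ℤ → ℝ, ∑ x ∈ iv k m, ∑ l : Unit, W x l * f x =
      ∑ j : Ix k, w j * f (2 ^ k * m + val k j) := by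
    intro f
    rw [PL.H588.sum_iv]
    refine sum_congr rfl fun j _ => ?_
    rw [Fintype.sum_unique]
    show W (2 ^ k * m + val k j) () * _ = _
    rw [hval]
  have e2 : ∑ x ∈ iv k m, ∑ l : Unit, W x l ^ 2 = w ⬝ᵥ w := by
    rw [PL.H588.sum_iv, dotProduct]
    refine sum_congr rfl fun j _ => ?_
    rw [Fintype.sum_unique]
    show W (2 ^ k * m + val k j) () ^ 2 = _
    rw [hval]
    ring
  have e3 : w ⬝ᵥ PA A k a n m *ᵥ w = ((2 : ℝ) ^ a * 2 ^ k)⁻¹ *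
      ∑ y ∈ iv a n, (∑ j : Ix k, w j * A y (2 ^ k * m + val k j)) ^ 2 := by
    have e4 : ∀ y, (∑ j : Ix k, w j * A y (2 ^ k * m + val k j)) ^ 2 =
        ∑ j : Ix k, ∑ j' : Ix k, w j * w j' *
          (A y (2 ^ k * m + val k j) * A y (2 ^ k * m + val k j')) := by
      intro y
      rw [sq, Finset.sum_mul_sum]
      exact sum_congr rfl fun j _ => sum_congr rfl fun j' _ => by ring
    simp only [e4]
    have e5 : ∀ j j', PA A k a n m j j' = ((2 : ℝ) ^ a * 2 ^ k)⁻¹ * ∑ y ∈ iv a n,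
        A y (2 ^ k * m + val k j) * A y (2 ^ k * m + val k j') := by
      intro j j'
      show PL.H588.Xg a k A n m j j' = _
      rw [PL.H588.Xg_apply, PL.H588.sum_iv]
    rw [sum_comm, mul_sum, dotProduct]
    refine sum_congr rfl fun j _ => ?_
    rw [sum_comm, mul_sum, mulVec, dotProduct, mul_sum]
    refine sum_congr rfl fun j' _ => ?_
    rw [e5, ← mul_sum]
    ring
  rw [e3, ← e2]
  have e6 : ∀ y, ∑ x ∈ iv k m, ∑ l, W x l * (un (fun z y => A y z)) x y l =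
      ∑ j : Ix k, w j * A y (2 ^ k * m + val k j) := fun y => e1 fun x => A y x
  simp only [e6] at h1
  have hp : (0 : ℝ) < 2 ^ a * 2 ^ k := by positivity
  rw [inv_mul_le_iff₀ hp]
  refine h1.trans (le_of_eq ?_)
  ring

/-- the matrix cap of a vector family over the rows and labels, rectangles -/
theorem capPB {κ : Type} [Fintype κ] [DecidableEq κ] {b : ℤ → ℤ → κ → ℝ} {c : ℝ} (hc : 0 ≤ c)
    {k : ℕ} (h : ∀ n m, CapS c k k b n m) {a : ℕ} (hka : k ≤ a) (n m : ℤ) :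
    (c • (1 : Matrix (Ix k × κ) (Ix k × κ) ℝ) - Matrix.of fun (i i' : Ix k × κ) =>
      ((2 : ℝ) ^ a * 2 ^ k)⁻¹ * ∑ y ∈ iv a n, b (2 ^ k * m + val k i.1) y i.2 *
        b (2 ^ k * m + val k i'.1) y i'.2).PosSemidef := by
  refine psd_form ?_ fun w => ?_
  · ext i i'
    rw [transpose_apply, of_apply, of_apply]
    congr 1
    exact sum_congr rfl fun y _ => mul_comm _ _
  set W : ℤ → κ → ℝ := fun z l => ∑ j : Ix k, if z = 2 ^ k * m + val k j then w (j, l) else 0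
    with hW
  have hval : ∀ (j : Ix k) l, W (2 ^ k * m + val k j) l = w (j, l) := by
    intro j l
    rw [hW]
    beta_reduce
    rw [Finset.sum_eq_single j]
    · rw [if_pos rfl]
    · intro b _ hb
      rw [if_neg]
      intro e
      apply hb
      have : val k j = val k b := by
        have := add_left_cancel e
        exact_mod_cast this
      exact (PL.H804.val_inj k this).symm
    · intro h'
      exact absurd (mem_univ j) h'
  have h1 := cap_rect hc h hka n m W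
  have e1 : ∀ f : ℤ → κ → ℝ, ∑ x ∈ iv k m, ∑ l : κ, W x l * f x l =
      ∑ i : Ix k × κ, w i * f (2 ^ k * m + val k i.1) i.2 := by
    intro f
    rw [PL.H588.sum_iv, Fintype.sum_prod_type]
    refine sum_congr rfl fun j _ => sum_congr rfl fun l _ => ?_
    rw [hval]
  have e2 : ∑ x ∈ iv k m, ∑ l : κ, W x l ^ 2 = w ⬝ᵥ w := by
    rw [PL.H588.sum_iv, dotProduct, Fintype.sum_prod_type]
    refine sum_congr rfl fun j _ => sum_congr rfl fun l _ => ?_
    rw [hval]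
    ring
  have e3 : (w ⬝ᵥ (Matrix.of fun (i i' : Ix k × κ) => ((2 : ℝ) ^ a * 2 ^ k)⁻¹ * ∑ y ∈ iv a n,
      b (2 ^ k * m + val k i.1) y i.2 * b (2 ^ k * m + val k i'.1) y i'.2) *ᵥ w) =
      ((2 : ℝ) ^ a * 2 ^ k)⁻¹ * ∑ y ∈ iv a n,
        (∑ i : Ix k × κ, w i * b (2 ^ k * m + val k i.1) y i.2) ^ 2 := by
    have e4 : ∀ y, (∑ i : Ix k × κ, w i * b (2 ^ k * m + val k i.1) y i.2) ^ 2 =
        ∑ i : Ix k × κ, ∑ i' : Ix k × κ, w i * w i' *
          (b (2 ^ k * m + val k i.1) y i.2 * b (2 ^ k * m + val k i'.1) y i'.2) := by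
      intro y
      rw [sq, Finset.sum_mul_sum]
      exact sum_congr rfl fun j _ => sum_congr rfl fun j' _ => by ring
    simp only [e4]
    rw [sum_comm, mul_sum, dotProduct]
    refine sum_congr rfl fun j _ => ?_
    rw [sum_comm, mul_sum, mulVec, dotProduct, mul_sum]
    refine sum_congr rfl fun j' _ => ?_
    rw [of_apply, ← mul_sum]
    ring
  rw [e3, ← e2]
  have e6 : ∀ y, ∑ x ∈ iv k m, ∑ l, W x l * b x y l =
      ∑ i : Ix k × κ, w i * b (2 ^ k * m + val k i.1) y i.2 := fun y => e1 fun x l => b x y l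
  simp only [e6] at h1
  have hp : (0 : ℝ) < 2 ^ a * 2 ^ k := by positivity
  rw [inv_mul_le_iff₀ hp]
  refine h1.trans (le_of_eq ?_)
  ring

theorem tr_PA (A : ℤ → ℤ → ℝ) (k : ℕ) (n m : ℤ) :
    (PA A k k n m).trace = ((2 : ℝ) ^ k * 2 ^ k)⁻¹ * ∑ y ∈ iv k n, ∑ z ∈ iv k m, A y z ^ 2 := by
  have e5 : ∀ j, PA A k k n m j j = ((2 : ℝ) ^ k * 2 ^ k)⁻¹ * ∑ y ∈ iv k n,
      A y (2 ^ k * m + val k j) ^ 2 := by
    intro j
    show PL.H588.Xg k k A n m j j = _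
    rw [PL.H588.Xg_apply, PL.H588.sum_iv]
    congr 1
    exact sum_congr rfl fun i _ => (sq _).symm
  rw [trace]
  simp only [diag_apply, e5]
  rw [← mul_sum, sum_comm]
  congr 1
  refine sum_congr rfl fun y _ => ?_
  rw [PL.H588.sum_iv]

/-- the plane sum of a mass on marked nodes -/
theorem GW_mass (N : ℕ) (R S T : ℤ) (k : ℕ) (c : ℤ) (h : ℤ → ℤ → ℝ) (Cm : ℤ → ℤ → Prop) :
    GW N R S T k c (fun n o m => if Cm m o then ((2 : ℝ) ^ k * 2 ^ k)⁻¹ * h n m else 0) =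
      ∑ m ∈ iv (N - k) S, ∑ n ∈ iv (N - k) R,
        (if (c - m - n ∈ iv (N - k) T ∧ Cm m (c - m - n)) then h n m else 0) := by
  unfold H103.GW
  rw [mul_sum]
  refine sum_congr rfl fun m _ => ?_
  rw [mul_sum]
  refine sum_congr rfl fun n _ => ?_
  have h4 : (4 : ℝ) ^ k = 2 ^ k * 2 ^ k := by rw [← mul_pow]; norm_num
  beta_reduce
  by_cases h1 : c - m - n ∈ iv (N - k) T
  · by_cases h2 : Cm m (c - m - n)
    · rw [if_pos h1, if_pos h2, if_pos ⟨h1, h2⟩, h4, ← mul_assoc, mul_inv_cancel₀ (by positivity),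
        one_mul]
    · rw [if_pos h1, if_neg h2, if_neg fun e => h2 e.2, mul_zero]
  · rw [if_neg h1, if_neg fun e => h1 e.1, mul_zero]

/-! ### The data of one class -/

/-- the path of `A` on the grid `sh` at `x0`, order `(y, z)` -/
def pA (K : ℕ) (x : Pt) (sh : Pt) (A : FamA) (x0 : ℤ) : ℕ → ℤ → ℤ → ℝ :=
  fun k y z => shA K (cx K x) sh (A x0) (min k K) z y

/-- the path of `b` -/
def pB {ι : Type} (K : ℕ) (x : Pt) (sh : Pt) (b : FamV ι) (x0 : ℤ) : ℕ → ℤ → ℤ → ι → ℝ :=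
  fun k x' y => shB K (cx K x) sh (b x0) (min k K) x' y

/-- the path of `C`, order `(x, z)` -/
def pC {ι : Type} (K : ℕ) (x : Pt) (sh : Pt) (C : FamV ι) (x0 : ℤ) : ℕ → ℤ → ℤ → ι → ℝ :=
  fun k x' z => shC K (cx K x) sh (C x0) (min k K) z x'

theorem un_sft' (N : ℕ) (R S a a' : ℤ) (F : ℤ → ℤ → ℝ) :
    un (sft N R S a a' F) = sft N R S a a' (un F) := by
  funext x y i
  unfold H103.un sft
  split_ifs <;> rfl

section cls

variable {ι : Type} [Fintype ι] [DecidableEq ι] {q : H401.Num} {n : ℕ} {ez : ℝ}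
  {F1 F2 F3 : ℕ → Pt → ℝ} {K : ℕ} {x : Pt} {s r : ℝ} {U : Tri} {g : ℤ → ℤ → ℝ}
  {u v : ℤ → ℤ → ι → ℝ} {A : FamA} {b C : FamV ι} {Q1 Q2 Q3 : ℕ → Pt → Prop}
  {v' : ℤ → ℤ → ι → ℝ}

/-- the affected squares of `A`, order `(y, z)` -/
def QA (q : H401.Num) (U : Tri) (K : ℕ) (Q1 : ℕ → Pt → Prop) (k : ℕ) (i y z : ℤ) : Prop :=
  H401.qA q U K Q1 k i z y

/-- the affected squares of `b`, order `(y, x)` -/
def QB (q : H401.Num) (U : Tri) (K : ℕ) (Q3 : ℕ → Pt → Prop) (k : ℕ) (i y x : ℤ) : Prop :=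
  H401.qB q U K Q3 k i x y

/-- the affected squares of `C`, order `(x, z)` -/
def QC (q : H401.Num) (U : Tri) (K : ℕ) (Q2 : ℕ → Pt → Prop) (k : ℕ) (i x z : ℤ) : Prop :=
  QD (fun k x y => sst q.Lm U.2.1 K k x y) Q2 k i x z

/-- **The data of `A`.** -/
theorem datA (h : FDs q n ez F1 F2 F3 K x s r U g u v A b C Q1 Q2 Q3 v') (hK : K ≤ n)
    (hB : 0 ≤ q.CD * (q.Lm * s)) :
    Dat K (ix K x.2.1) (ix K x.2.2) (fun x0 k y z => A x0 k z y ^ 2) (QA q U K Q1)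
      (q.CD * (q.Lm * s)) (q.cP + 2) where
  B0 := hB
  f0 := fun x0 k y z => sq_nonneg _
  ag := fun x0 k hk n' m' hQ y hy z hz => by
    have h1 := h.agA x0 k hk m' n' hQ z hz y hy
    rw [h1]
  ms := fun k hk j hj i n' hn m' hm => by
    have h1 := h.massA k hk j hj i m' hm n' hn
    refine le_trans (le_of_eq ?_) h1
    exact sum_congr rfl fun x0 _ => sum_comm
  pk := fun x0 => QD_pack (Dd_sst q.Lm U.2.2 K) h.B1 x0 hK (ix K x.2.1) (ix K x.2.2)

/-- **The data of `b`.** -/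
theorem datB (h : FDs q n ez F1 F2 F3 K x s r U g u v A b C Q1 Q2 Q3 v') (hK : K ≤ n)
    (hB : 0 ≤ q.CD * (q.Lm * s)) :
    Dat K (ix K x.2.1) (ix K x.1) (fun x0 k y x' => b x0 k x' y ⬝ᵥ b x0 k x' y) (QB q U K Q3)
      (q.CD * (q.Lm * s)) (q.cP + 2) where
  B0 := hB
  f0 := fun x0 k y z => sum_nonneg fun _ _ => mul_self_nonneg _
  ag := fun x0 k hk n' m' hQ y hy z hz => by
    have h1 := h.agb x0 k hk m' n' hQ z hz y hy
    beta_reduce
    rw [h1]
  ms := fun k hk j hj i n' hn m' hm => by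
    have h1 := h.massb k hk j hj i m' hm n' hn
    refine le_trans (le_of_eq ?_) h1
    exact sum_congr rfl fun x0 _ => sum_comm
  pk := fun x0 => by
    have h1 := QD_pack (Dd_sst q.Lm U.1 K) h.B3 x0 hK (ix K x.1) (ix K x.2.1)
    refine le_trans (le_of_eq ?_) h1
    refine sum_congr rfl fun k _ => ?_
    rw [sum_comm]
    rfl

/-- **The packing of the affected squares of `C`**, both orders. -/
theorem pkC (h : FDs q n ez F1 F2 F3 K x s r U g u v A b C Q1 Q2 Q3 v') (hK : K ≤ n) (x0 : ℤ) :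
    ∑ k ∈ range (K + 1), ∑ n' ∈ iv (K - k) (ix K x.1), ∑ m' ∈ iv (K - k) (ix K x.2.2),
      (if QC q U K Q2 k (ix k x0) n' m' then (4 : ℝ) ^ k else 0) ≤ (q.cP + 2) * 4 ^ K :=
  QD_pack (Dd_sst q.Lm U.2.1 K) h.B2 x0 hK (ix K x.1) (ix K x.2.2)

theorem pkC' (h : FDs q n ez F1 F2 F3 K x s r U g u v A b C Q1 Q2 Q3 v') (hK : K ≤ n) (x0 : ℤ) :
    ∑ k ∈ range (K + 1), ∑ n' ∈ iv (K - k) (ix K x.2.2), ∑ m' ∈ iv (K - k) (ix K x.1),
      (if QC q U K Q2 k (ix k x0) m' n' then (4 : ℝ) ^ k else 0) ≤ (q.cP + 2) * 4 ^ K := by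
  refine le_trans (le_of_eq ?_) (pkC h hK x0)
  exact sum_congr rfl fun k _ => sum_comm

/-- **The position of a change of `C`** on the shifted grid. -/
theorem chC (h : FDs q n ez F1 F2 F3 K x s r U g u v A b C Q1 Q2 Q3 v') (hK : K ≤ n) (sh : Pt)
    (x0 : ℤ) {k : ℕ} (hk : k < K) {n1 n3 : ℤ}
    (hc : Ch (pC K x sh C x0) k n1 n3) :
    ∃ p ∈ iv (K - k) (ix K x.1), ∃ o ∈ iv (K - k) (ix K x.2.2),
      QC q U K Q2 k (ix k x0) p o ∧ p ∈ two (n1 + ix k sh.1) ∧ o ∈ two (n3 + ix k sh.2.2) := by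
  obtain ⟨x', hx', z, hz, hne⟩ := hc
  refine ch_pos (E := ι → ℝ) hk.le (F := fun x' z => C x0 k z x')
    (F' := fun x' z => C x0 (k + 1) z x') (Qk := QC q U K Q2 k (ix k x0)) ?_
    ⟨x', hx', z, hz, ?_⟩
  · intro n' m' hQ x'' hx'' z'' hz''
    beta_reduce
    rw [h.C_eq, h.C_eq]
    have h1 := agree_kD (Dd_sst q.Lm U.2.1 K) h.B2 (by omega : k < n) hQ hx'' hz''
    rw [H576.kD_sst] at h1
    rw [h1]
  · unfold pC at hne
    rw [min_eq_left (Nat.succ_le_of_lt hk), min_eq_left hk.le] at hne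
    intro e
    apply hne
    unfold H747.shC
    rw [sft_swap, sft_swap K _ _ _ _ (C x0 k)]
    exact e

/-- the double sum over a root as a sum over the squares of a scale -/
theorem sum_sq {N k : ℕ} (hk : k ≤ N) (R S : ℤ) (G : ℤ → ℤ → ℝ) :
    ∑ y ∈ iv N R, ∑ z ∈ iv N S, G y z =
      ∑ p ∈ iv (N - k) R, ∑ o ∈ iv (N - k) S, ∑ y ∈ iv k p, ∑ z ∈ iv k o, G y z := by
  rw [← sum_iv_iv hk R]
  refine sum_congr rfl fun p _ => ?_
  rw [sum_comm, ← sum_iv_iv hk S]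
  refine sum_congr rfl fun o _ => ?_
  rw [sum_comm]

theorem sum_if {N k : ℕ} (hk : k ≤ N) (R S : ℤ) (G : ℤ → ℤ → ℝ) (Cm : ℤ → ℤ → Prop) :
    ∑ y ∈ iv N R, ∑ z ∈ iv N S, (if Cm (ix k y) (ix k z) then G y z else 0) =
      ∑ p ∈ iv (N - k) R, ∑ o ∈ iv (N - k) S,
        (if Cm p o then ∑ y ∈ iv k p, ∑ z ∈ iv k o, G y z else 0) := by
  rw [sum_sq hk]
  refine sum_congr rfl fun p _ => sum_congr rfl fun o _ => ?_
  split_ifs with h
  · refine sum_congr rfl fun y hy => sum_congr rfl fun z hz => ?_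
    rw [mem_iv.1 hy, mem_iv.1 hz, if_pos h]
  · refine sum_eq_zero fun y hy => sum_eq_zero fun z hz => ?_
    rw [mem_iv.1 hy, mem_iv.1 hz, if_neg h]

/-- the number of `A` -/
def EAn (q : H401.Num) (U : Tri) (K : ℕ) (x : Pt) (A : FamA) (Q1 Q2 : ℕ → Pt → Prop) (sh : Pt)
    (pl : ℤ → ℕ → ℤ) (x0 : ℤ) : ℝ :=
  En K (ix K x.2.1) (ix K x.2.2) (fun x0 k y z => A x0 k z y ^ 2) (QA q U K Q1) x0 +
    Bo K (ix K x.2.1) (ix K x.2.2) (fun x0 k y z => A x0 k z y ^ 2) (QA q U K Q1)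
      sh.2.1 sh.2.2 x0 +
    Cr K (ix K x.2.1) (ix K x.2.2) (fun x0 k y z => A x0 k z y ^ 2)
      (fun k i z x' => QC q U K Q2 k i x' z) (ix K x.1) sh.2.1 sh.2.2 sh.1 pl x0

theorem Ms_if_nonneg {N : ℕ} {R S : ℤ} {f : ℤ → ℕ → ℤ → ℤ → ℝ} {Q : ℕ → ℤ → ℤ → ℤ → Prop}
    {B P : ℝ} (h : Dat N R S f Q B P) (x0 a b : ℤ) :
    0 ≤ En N R S f Q x0 ∧ 0 ≤ Bo N R S f Q a b x0 := by
  constructor
  · unfold En
    refine add_nonneg (sum_nonneg fun _ _ => sum_nonneg fun _ _ => h.f0 _ _ _ _)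
      (sum_nonneg fun _ _ => sum_nonneg fun _ _ => sum_nonneg fun _ _ => ?_)
    split_ifs
    · exact Ms_nonneg (h.f0 _ _) _ _ _
    · exact le_rfl
  · unfold Bo
    refine sum_nonneg fun _ _ => sum_nonneg fun _ _ => sum_nonneg fun _ _ => ?_
    split_ifs
    · exact sum_nonneg fun _ _ => sum_nonneg fun _ _ => sum_nonneg fun _ _ =>
        sum_nonneg fun _ _ => Ms_nonneg (h.f0 _ _) _ _ _
    · exact le_rfl

theorem Cr_nonneg {N : ℕ} {R S : ℤ} {f : ℤ → ℕ → ℤ → ℤ → ℝ} {Q : ℕ → ℤ → ℤ → ℤ → Prop}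
    {B P : ℝ} (h : Dat N R S f Q B P) (Qc : ℕ → ℤ → ℤ → ℤ → Prop) (T a b w : ℤ)
    (c : ℤ → ℕ → ℤ) (x0 : ℤ) : 0 ≤ Cr N R S f Qc T a b w c x0 := by
  unfold Cr
  refine sum_nonneg fun _ _ => sum_nonneg fun _ _ => sum_nonneg fun _ _ => ?_
  split_ifs
  · exact T16_nonneg (h.f0 _ _) _ _ _ _ _ _ _
  · exact le_rfl

/-- **All fields of `NumA`** for the family `A` on the shifted plane, every `x0`. -/
theorem numA_one (h : FDs q n ez F1 F2 F3 K x s r U g u v A b C Q1 Q2 Q3 v') (hK : K ≤ n)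
    (hB : 0 ≤ q.CD * (q.Lm * s)) (sh : Pt) (x0 r1 r2 r3 : ℤ) (pl : ℤ → ℕ → ℤ) :
    NumA 0 K r1 r2 r3 (pl x0) (pA K x sh A x0)
      (pC K x sh C x0)
      (4 * q.th s r ^ 2) (EAn q U K x A Q1 Q2 sh pl x0) := by
  have hD := datA h hK hB
  obtain ⟨n1, n2⟩ := Ms_if_nonneg hD x0 sh.2.1 sh.2.2
  have n3 := Cr_nonneg hD (fun k i z x' => QC q U K Q2 k i x' z) (ix K x.1) sh.2.1 sh.2.2 sh.1
    pl x0
  have esq : ∀ k, k ≤ K → ∀ y z, pA K x sh A x0 k y z ^ 2 =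
      sft K (ix K x.2.1) (ix K x.2.2) sh.2.1 sh.2.2 (fun y z => A x0 k z y ^ 2) y z := by
    intro k hk y z
    unfold pA H747.shA H747.sft
    rw [min_eq_left hk]
    show (if ix K (z + sh.2.2) = ix K x.2.2 ∧ ix K (y + sh.2.1) = ix K x.2.1 then
      A x0 k (z + sh.2.2) (y + sh.2.1) else 0) ^ 2 = _
    by_cases e : ix K (z + sh.2.2) = ix K x.2.2 ∧ ix K (y + sh.2.1) = ix K x.2.1
    · rw [if_pos e, if_pos e.symm]
    · rw [if_neg e, if_neg fun e' => e e'.symm]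
      norm_num
  refine ⟨?_, ?_, ?_, ?_⟩
  · -- cap
    intro k a n' m' _ hka haK j hj hj' _ _
    refine capPA (by positivity) (fun n'' m'' => ?_) hka n' m'
    have hcap : ∀ n m, CapS (q.th s r ^ 2) k k (un (A x0 (min j K))) n m := by
      intro n m
      rcases Nat.lt_or_ge k K with hlt | hge
      · rcases Nat.lt_or_ge k j with h1 | h1
        · have : j = k + 1 := by omega
          subst this
          rw [min_eq_left (by omega : k + 1 ≤ K)]
          exact h.capA1 x0 k hlt n m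
        · have : j = k := by omega
          subst this
          rw [min_eq_left hlt.le]
          exact h.capA x0 j hlt.le n m
      · have : min j K = k := by omega
        rw [this]
        exact h.capA x0 k (by omega) n m
    have h1 := capS_sft (by omega : k ≤ K) (sq_nonneg (q.th s r)) hcap (ix K x.2.2) (ix K x.2.1)
      sh.2.2 sh.2.1 n'' m''
    rw [← un_sft'] at h1
    exact h1
  · -- energies
    intro k hk
    rw [sum_congr rfl fun y _ => sum_congr rfl fun z _ => esq k hk y z]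
    have h1 := en_le hD x0 hk sh.2.1 sh.2.2 (iv K r2) (iv K r3)
    unfold EAn
    beta_reduce at h1
    linarith
  · -- changes of `A`
    have h1 : ∑ k ∈ Ico 0 K, ∑ y ∈ iv K r2, ∑ z ∈ iv K r3,
        (if Ch (pA K x sh A x0) k (ix k y) (ix k z) then pA K x sh A x0 (k + 1) y z ^ 2 else 0) ≤
        Bo K (ix K x.2.1) (ix K x.2.2) (fun x0 k y z => A x0 k z y ^ 2) (QA q U K Q1)
          sh.2.1 sh.2.2 x0 := by
      unfold Bo
      rw [range_eq_Ico]
      refine sum_le_sum fun k hk => ?_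
      have hkK : k < K := (mem_Ico.1 hk).2
      rw [sum_if hkK.le r2 r3 _ (Ch (pA K x sh A x0) k)]
      have e3 : ∀ p o, ∑ y ∈ iv k p, ∑ z ∈ iv k o, pA K x sh A x0 (k + 1) y z ^ 2 =
          ∑ y ∈ iv k p, ∑ z ∈ iv k o, sft K (ix K x.2.1) (ix K x.2.2) sh.2.1 sh.2.2
            (fun y z => A x0 (k + 1) z y ^ 2) y z := fun p o =>
        sum_congr rfl fun y _ => sum_congr rfl fun z _ => esq (k + 1) hkK y z
      simp only [e3]
      refine bo_one hD x0 hkK sh.2.1 sh.2.2 (iv (K - k) r2) (iv (K - k) r3)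
        (Chp := Ch (pA K x sh A x0) k) fun n' m' hch => ?_
      obtain ⟨y, hy, z, hz, hne⟩ := hch
      refine ch_pos (E := ℝ) hkK.le (F := fun y z => A x0 k z y)
        (F' := fun y z => A x0 (k + 1) z y) (Qk := QA q U K Q1 k (ix k x0)) ?_
        ⟨y, hy, z, hz, ?_⟩
      · intro n'' m'' hQ y'' hy'' z'' hz''
        exact h.agA x0 k hkK m'' n'' hQ z'' hz'' y'' hy''
      · unfold pA at hne
        rw [min_eq_left (Nat.succ_le_of_lt hkK), min_eq_left hkK.le] at hne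
        intro e
        apply hne
        unfold H747.shA
        rw [sft_swap, sft_swap K _ _ _ _ (A x0 k)]
        exact e
    refine h1.trans ?_
    unfold EAn
    linarith
  · -- nodes where `C` changes
    have h1 : ∑ k ∈ Ico 0 K, GW K r2 r3 r1 k (pl x0 k) (fun n2 n1 m =>
        if Ch (pC K x sh C x0) k n1 m then (PA (pA K x sh A x0 (k + 1)) k k n2 m).trace
        else 0) ≤
        Cr K (ix K x.2.1) (ix K x.2.2) (fun x0 k y z => A x0 k z y ^ 2)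
          (fun k i z x' => QC q U K Q2 k i x' z) (ix K x.1) sh.2.1 sh.2.2 sh.1 pl x0 := by
      unfold Cr
      rw [range_eq_Ico]
      refine sum_le_sum fun k hk => ?_
      have hkK : k < K := (mem_Ico.1 hk).2
      have e2 : (fun n2 n1 m =>
          if Ch (pC K x sh C x0) k n1 m then (PA (pA K x sh A x0 (k + 1)) k k n2 m).trace
          else 0) = fun n2 n1 m => if Ch (pC K x sh C x0) k n1 m then
            ((2 : ℝ) ^ k * 2 ^ k)⁻¹ * (∑ y ∈ iv k n2, ∑ z ∈ iv k m,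
              sft K (ix K x.2.1) (ix K x.2.2) sh.2.1 sh.2.2
                (fun y z => A x0 (k + 1) z y ^ 2) y z) else 0 := by
        funext n2 n1 m
        rw [tr_PA, sum_congr rfl fun y _ => sum_congr rfl fun z _ => esq (k + 1) hkK y z]
      rw [e2]
      have e4 := GW_mass K r2 r3 r1 k (pl x0 k) (fun n2 m => ∑ y ∈ iv k n2, ∑ z ∈ iv k m,
              sft K (ix K x.2.1) (ix K x.2.2) sh.2.1 sh.2.2
                (fun y z => A x0 (k + 1) z y ^ 2) y z) (fun m o => Ch (pC K x sh C x0) k o m)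
      refine e4.le.trans ?_
      refine le_trans (le_of_eq ?_) (cr_one hD x0 hkK (ix K x.1) sh.2.1 sh.2.2 sh.1 (pl x0 k)
        (iv (K - k) r2) (iv (K - k) r3) (Chp := fun m n => pl x0 k - m - n ∈ iv (K - k) r1 ∧
          Ch (pC K x sh C x0) k (pl x0 k - m - n) m)
        (Qc := fun k i z x' => QC q U K Q2 k i x' z) fun m n' hch => ?_)
      · refine sum_congr rfl fun m _ => sum_congr rfl fun n' _ => ?_
        congr
      · obtain ⟨p, hp, o, ho, hQ, h3, h4⟩ := chC h hK sh x0 hkK hch.2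
        exact ⟨o, ho, p, hp, hQ, h4, h3⟩
    refine h1.trans ?_
    unfold EAn
    linarith

/-- **The sum over `x0` of the number of `A`.** -/
theorem EAn_sum (h : FDs q n ez F1 F2 F3 K x s r U g u v A b C Q1 Q2 Q3 v') (hK : K ≤ n)
    (hB : 0 ≤ q.CD * (q.Lm * s)) (sh : Pt) {pl : ℤ → ℕ → ℤ}
    (hpl : ∀ k i, ∃ c0, ∀ x0 ∈ iv k i, pl x0 k ∈ two c0) (t : ℤ) :
    ∑ x0 ∈ iv K t, EAn q U K x A Q1 Q2 sh pl x0 ≤
      49 * (q.CD * (q.Lm * s)) * (q.cP + 3) * 8 ^ K := by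
  have hD := datA h hK hB
  have h1 := En_sum hD t
  have h2 := Bo_sum hD sh.2.1 sh.2.2 t
  have h3 := Cr_sum hD (T := ix K x.1) (Qc := fun k i z x' => QC q U K Q2 k i x' z)
    (fun x0 => pkC' h hK x0) sh.2.1 sh.2.2 sh.1 hpl t
  unfold EAn
  rw [sum_add_distrib, sum_add_distrib]
  have h8 : (0 : ℝ) ≤ 8 ^ K := by positivity
  have h9 : 0 ≤ (q.CD * (q.Lm * s)) * 8 ^ K := mul_nonneg hB h8
  nlinarith

/-- the planes of the grid -/
theorem hpl_ys (sh : Pt) (j : ℤ) (k : ℕ) (i : ℤ) :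
    ∃ c0, ∀ x0 ∈ iv k i, ix k (ys (-x0) sh) - j ∈ two c0 := by
  obtain ⟨c0, hc⟩ := plane_two (3 - sh.1 - sh.2.1 - sh.2.2) j k i
  refine ⟨c0, fun x0 hx => ?_⟩
  have h1 := hc x0 hx
  have e : ys (-x0) sh = 3 - sh.1 - sh.2.1 - sh.2.2 - x0 := by
    unfold H795.ys
    ring
  rw [e]
  exact h1

/-- **`NumA` of the flow part** on the shifted plane, every `x0`, every root. -/
theorem numA_TF (h : FDs q n ez F1 F2 F3 K x s r U g u v A b C Q1 Q2 Q3 v') (hK : K ≤ n)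
    (hB : 0 ≤ q.CD * (q.Lm * s)) (sh : Pt) (j : ℤ) :
    ∃ EA : ℤ → ℝ, (∀ x0, 0 ≤ EA x0) ∧
      (∀ x0 r1 r2 r3 : ℤ, NumA 0 K r1 r2 r3 (fun k => ix k (ys (-x0) sh) - j)
        (fun k y z => shA K (cx K x) sh (A x0) (min k K) z y)
        (fun k x' z => shC K (cx K x) sh (C x0) (min k K) z x') (4 * q.th s r ^ 2) (EA x0)) ∧
      ∀ t, ∑ x0 ∈ iv K t, EA x0 ≤ 49 * (q.CD * (q.Lm * s)) * (q.cP + 3) * 8 ^ K := by
  refine ⟨EAn q U K x A Q1 Q2 sh fun x0 k => ix k (ys (-x0) sh) - j, fun x0 => ?_,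
    fun x0 r1 r2 r3 => ?_, fun t => EAn_sum h hK hB sh (hpl_ys sh j) t⟩
  · have hD := datA h hK hB
    obtain ⟨n1, n2⟩ := Ms_if_nonneg hD x0 sh.2.1 sh.2.2
    have n3 := Cr_nonneg hD (fun k i z x' => QC q U K Q2 k i x' z) (ix K x.1) sh.2.1 sh.2.2 sh.1
      (fun x0 k => ix k (ys (-x0) sh) - j) x0
    unfold EAn
    linarith
  · exact numA_one h hK hB sh x0 r1 r2 r3 fun x0 k => ix k (ys (-x0) sh) - j

end cls

end

end Vale.Agent.P141.H900.Num
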