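import Vale.Agent.P141.H900.NumAB
import Vale.Agent.P141.H585.PairRXS

/-!
# P141, line (A), flow part: the numbers of `b` on a shifted plane

* `EBn` : the number of `b` at one `x0`; `enB`, `bornB`, `crB`, `capB_TF` : energies at every time,
  mass on the changed squares, mass on the squares tied to the changes of `C`, the cap;
* `EBn_sum` : the sum over `x0`; `numB_TF` : all fields of `H505.Sk1.NumB`;
* `MVb_sum` : the masses `MV` of `H585.PairRX` for `(0 ; b)`, summed over `x0`.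
-/

namespace Vale.Agent.P141.H900.Num

open Finset Matrix
open Vale.Agent.P075 (Ix val)
open Vale.Agent.P141.PL (Pt iv ix mem_iv ix_ix cx)
open Vale.Agent.P141.PL.H315 (Tri)
open Vale.Agent.P141.H48 (BSl sst)
open Vale.Agent.P141.H210 (two mem_two)
open Vale.Agent.P141.H747 (sft shA shB shC sft_swap capS_sft)
open Vale.Agent.P141.H576 (QD QD_pack Dd_sst agree_kD)
open Vale.Agent.P141.H205 (CapS)
open Vale.Agent.P141.H103 (PA un QW GW)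
open Vale.Agent.P141.H505.Sk1 (Ch NumA NumB)
open Vale.Agent.P141.H677.Sk (FamA FamV FDs)
open Vale.Agent.P141.H795 (ys)

noncomputable section

open scoped Classical

set_option linter.unusedSectionVars false

section cls

variable {ι : Type} [Fintype ι] [DecidableEq ι] {q : H401.Num} {n : ℕ} {ez : ℝ}
  {F1 F2 F3 : ℕ → Pt → ℝ} {K : ℕ} {x : Pt} {s r : ℝ} {U : Tri} {g : ℤ → ℤ → ℝ}
  {u v : ℤ → ℤ → ι → ℝ} {A : FamA} {b C : FamV ι} {Q1 Q2 Q3 : ℕ → Pt → Prop}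
  {v' : ℤ → ℤ → ι → ℝ}

/-- the squared norms of `b`, order `(y, x)` -/
def fB (b : FamV ι) (x0 : ℤ) (k : ℕ) (y x' : ℤ) : ℝ := b x0 k x' y ⬝ᵥ b x0 k x' y

/-- the number of `b` -/
def EBn (q : H401.Num) (U : Tri) (K : ℕ) (x : Pt) (b : FamV ι) (Q2 Q3 : ℕ → Pt → Prop) (sh : Pt)
    (pl : ℤ → ℕ → ℤ) (x0 : ℤ) : ℝ :=
  En K (ix K x.2.1) (ix K x.1) (fB b) (QB q U K Q3) x0 +
    Bo K (ix K x.2.1) (ix K x.1) (fB b) (QB q U K Q3) sh.2.1 sh.1 x0 +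
    Cr K (ix K x.2.1) (ix K x.1) (fB b) (QC q U K Q2) (ix K x.2.2) sh.2.1 sh.1 sh.2.2 pl x0

theorem esqB (sh : Pt) (x0 : ℤ) {k : ℕ} (hk : k ≤ K) (x' y : ℤ) :
    pB K x sh b x0 k x' y ⬝ᵥ pB K x sh b x0 k x' y =
      sft K (ix K x.2.1) (ix K x.1) sh.2.1 sh.1 (fB b x0 k) y x' := by
  unfold pB H747.shB H747.sft fB
  rw [min_eq_left hk]
  show (if ix K (x' + sh.1) = ix K x.1 ∧ ix K (y + sh.2.1) = ix K x.2.1 then
      b x0 k (x' + sh.1) (y + sh.2.1) else 0) ⬝ᵥ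
    (if ix K (x' + sh.1) = ix K x.1 ∧ ix K (y + sh.2.1) = ix K x.2.1 then
      b x0 k (x' + sh.1) (y + sh.2.1) else 0) = _
  by_cases e : ix K (x' + sh.1) = ix K x.1 ∧ ix K (y + sh.2.1) = ix K x.2.1
  · rw [if_pos e, if_pos e.symm]
  · rw [if_neg e, if_neg fun e' => e e'.symm, dotProduct_zero]

/-- **Energies of `b` at every time.** -/
theorem enB (h : FDs q n ez F1 F2 F3 K x s r U g u v A b C Q1 Q2 Q3 v') (hK : K ≤ n)
    (hB : 0 ≤ q.CD * (q.Lm * s)) (sh : Pt) (x0 : ℤ) {k : ℕ} (hk : k ≤ K) (I J : Finset ℤ) :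
    ∑ x' ∈ I, ∑ y ∈ J, pB K x sh b x0 k x' y ⬝ᵥ pB K x sh b x0 k x' y ≤
      En K (ix K x.2.1) (ix K x.1) (fB b) (QB q U K Q3) x0 := by
  have hD := datB h hK hB
  have h1 := en_le hD x0 hk sh.2.1 sh.1 J I
  rw [sum_comm]
  refine le_trans (le_of_eq ?_) h1
  exact sum_congr rfl fun y _ => sum_congr rfl fun x' _ => esqB sh x0 hk x' y

/-- **Mass of `b` on the changed squares.** -/
theorem bornB (h : FDs q n ez F1 F2 F3 K x s r U g u v A b C Q1 Q2 Q3 v') (hK : K ≤ n)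
    (hB : 0 ≤ q.CD * (q.Lm * s)) (sh : Pt) (x0 : ℤ) (r1 r2 : ℤ) :
    ∑ k ∈ Ico 0 K, ∑ x' ∈ iv K r1, ∑ y ∈ iv K r2,
      (if Ch (pB K x sh b x0) k (ix k x') (ix k y) then
        pB K x sh b x0 (k + 1) x' y ⬝ᵥ pB K x sh b x0 (k + 1) x' y else 0) ≤
      Bo K (ix K x.2.1) (ix K x.1) (fB b) (QB q U K Q3) sh.2.1 sh.1 x0 := by
  have hD := datB h hK hB
  unfold Bo
  rw [range_eq_Ico]
  refine sum_le_sum fun k hk => ?_
  have hkK : k < K := (mem_Ico.1 hk).2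
  rw [sum_comm]
  rw [sum_if hkK.le r2 r1 (fun y x' => pB K x sh b x0 (k + 1) x' y ⬝ᵥ pB K x sh b x0 (k + 1) x' y)
    (fun m' n' => Ch (pB K x sh b x0) k n' m')]
  have e3 : ∀ p o, ∑ y ∈ iv k p, ∑ x' ∈ iv k o,
      pB K x sh b x0 (k + 1) x' y ⬝ᵥ pB K x sh b x0 (k + 1) x' y =
      ∑ y ∈ iv k p, ∑ x' ∈ iv k o, sft K (ix K x.2.1) (ix K x.1) sh.2.1 sh.1
        (fB b x0 (k + 1)) y x' := fun p o =>
    sum_congr rfl fun y _ => sum_congr rfl fun x' _ => esqB sh x0 hkK x' y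
  simp only [e3]
  refine bo_one hD x0 hkK sh.2.1 sh.1 (iv (K - k) r2) (iv (K - k) r1)
    (Chp := fun m' n' => Ch (pB K x sh b x0) k n' m') fun m' n' hch => ?_
  obtain ⟨x', hx', y, hy, hne⟩ := hch
  refine ch_pos (E := ι → ℝ) hkK.le (F := fun y x' => b x0 k x' y)
    (F' := fun y x' => b x0 (k + 1) x' y) (Qk := QB q U K Q3 k (ix k x0)) ?_
    ⟨y, hy, x', hx', ?_⟩
  · intro m'' n'' hQ y'' hy'' x'' hx''
    exact h.agb x0 k hkK n'' m'' hQ x'' hx'' y'' hy''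
  · unfold pB at hne
    rw [min_eq_left (Nat.succ_le_of_lt hkK), min_eq_left hkK.le] at hne
    intro e
    apply hne
    unfold H747.shB
    rw [sft_swap, sft_swap K _ _ _ _ (b x0 k)]
    exact e

/-- **Mass of `b` on the squares tied to the changes of `C`.** -/
theorem crB (h : FDs q n ez F1 F2 F3 K x s r U g u v A b C Q1 Q2 Q3 v') (hK : K ≤ n)
    (hB : 0 ≤ q.CD * (q.Lm * s)) (sh : Pt) (x0 : ℤ) (r1 r2 r3 : ℤ) (pl : ℤ → ℕ → ℤ) :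
    ∑ k ∈ Ico 0 K, GW K r2 r1 r3 k (pl x0 k) (fun n2 n3 n1 =>
      if Ch (pC K x sh C x0) k n1 n3 then ((2 : ℝ) ^ k * 2 ^ k)⁻¹ * ∑ x' ∈ iv k n1,
        ∑ y ∈ iv k n2, pB K x sh b x0 (k + 1) x' y ⬝ᵥ pB K x sh b x0 (k + 1) x' y else 0) ≤
      Cr K (ix K x.2.1) (ix K x.1) (fB b) (QC q U K Q2) (ix K x.2.2) sh.2.1 sh.1 sh.2.2 pl x0 := by
  have hD := datB h hK hB
  unfold Cr
  rw [range_eq_Ico]
  refine sum_le_sum fun k hk => ?_
  have hkK : k < K := (mem_Ico.1 hk).2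
  have e2 : (fun n2 n3 n1 =>
      if Ch (pC K x sh C x0) k n1 n3 then ((2 : ℝ) ^ k * 2 ^ k)⁻¹ * ∑ x' ∈ iv k n1,
        ∑ y ∈ iv k n2, pB K x sh b x0 (k + 1) x' y ⬝ᵥ pB K x sh b x0 (k + 1) x' y else 0) =
      fun n2 n3 n1 => if Ch (pC K x sh C x0) k n1 n3 then
        ((2 : ℝ) ^ k * 2 ^ k)⁻¹ * (∑ y ∈ iv k n2, ∑ x' ∈ iv k n1,
          sft K (ix K x.2.1) (ix K x.1) sh.2.1 sh.1 (fB b x0 (k + 1)) y x') else 0 := by
    funext n2 n3 n1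
    rw [sum_comm, sum_congr rfl fun y _ => sum_congr rfl fun x' _ => esqB sh x0 hkK x' y]
  rw [e2]
  have e4 := GW_mass K r2 r1 r3 k (pl x0 k) (fun n2 m => ∑ y ∈ iv k n2, ∑ x' ∈ iv k m,
    sft K (ix K x.2.1) (ix K x.1) sh.2.1 sh.1 (fB b x0 (k + 1)) y x')
    (fun m o => Ch (pC K x sh C x0) k m o)
  refine e4.le.trans ?_
  refine le_trans (le_of_eq ?_) (cr_one hD x0 hkK (ix K x.2.2) sh.2.1 sh.1 sh.2.2 (pl x0 k)
    (iv (K - k) r2) (iv (K - k) r1) (Chp := fun m n => pl x0 k - m - n ∈ iv (K - k) r3 ∧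
      Ch (pC K x sh C x0) k m (pl x0 k - m - n))
    (Qc := QC q U K Q2) fun m n' hch => ?_)
  · refine sum_congr rfl fun m _ => sum_congr rfl fun n' _ => ?_
    congr
  · obtain ⟨p, hp, o, ho, hQ, h3, h4⟩ := chC h hK sh x0 hkK hch.2
    exact ⟨p, hp, o, ho, hQ, h3, h4⟩

/-- **The sum over `x0` of the number of `b`.** -/
theorem EBn_sum (h : FDs q n ez F1 F2 F3 K x s r U g u v A b C Q1 Q2 Q3 v') (hK : K ≤ n)
    (hB : 0 ≤ q.CD * (q.Lm * s)) (sh : Pt) {pl : ℤ → ℕ → ℤ}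
    (hpl : ∀ k i, ∃ c0, ∀ x0 ∈ iv k i, pl x0 k ∈ two c0) (t : ℤ) :
    ∑ x0 ∈ iv K t, EBn q U K x b Q2 Q3 sh pl x0 ≤
      49 * (q.CD * (q.Lm * s)) * (q.cP + 3) * 8 ^ K := by
  have hD : Dat K (ix K x.2.1) (ix K x.1) (fB b) (QB q U K Q3) (q.CD * (q.Lm * s))
    (q.cP + 2) := datB h hK hB
  have h1 := En_sum hD t
  have h2 := Bo_sum hD sh.2.1 sh.1 t
  have h3 := Cr_sum hD (T := ix K x.2.2) (Qc := QC q U K Q2)
    (fun x0 => pkC h hK x0) sh.2.1 sh.1 sh.2.2 hpl t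
  unfold EBn
  rw [sum_add_distrib, sum_add_distrib]
  have h8 : (0 : ℝ) ≤ 8 ^ K := by positivity
  have h9 : 0 ≤ (q.CD * (q.Lm * s)) * 8 ^ K := mul_nonneg hB h8
  nlinarith

/-- the cap of `b` on the shifted squares, all times -/
theorem capSB (h : FDs q n ez F1 F2 F3 K x s r U g u v A b C Q1 Q2 Q3 v') (sh : Pt) (x0 : ℤ)
    {k : ℕ} (hk : k ≤ K) {j : ℕ} (hj : k ≤ j) (hj' : j ≤ k + 1) (n' m' : ℤ) :
    CapS (4 * q.th s r ^ 2) k k (pB K x sh b x0 j) n' m' := by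
  have hcap : ∀ n m, CapS (q.th s r ^ 2) k k (b x0 (min j K)) n m := by
    intro n m
    rcases Nat.lt_or_ge k K with hlt | hge
    · rcases Nat.lt_or_ge k j with h1 | h1
      · have : j = k + 1 := by omega
        subst this
        rw [min_eq_left (by omega : k + 1 ≤ K)]
        exact h.capb1 x0 k hlt n m
      · have : j = k := by omega
        subst this
        rw [min_eq_left hlt.le]
        exact h.capb x0 j hlt.le n m
    · have : min j K = k := by omega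
      rw [this]
      exact h.capb x0 k (by omega) n m
  exact capS_sft hk (sq_nonneg (q.th s r)) hcap (ix K x.1) (ix K x.2.1) sh.1 sh.2.1 n' m'

/-- **All fields of `NumB`** for the family `b` on the shifted plane, every `x0`; the variation of
the slot against `b` is one number `X0`. -/
theorem numB_one (h : FDs q n ez F1 F2 F3 K x s r U g u v A b C Q1 Q2 Q3 v') (hK : K ≤ n)
    (hB : 0 ≤ q.CD * (q.Lm * s)) (sh : Pt) (x0 r1 r2 r3 : ℤ) (pl : ℤ → ℕ → ℤ) {β X0 : ℝ}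
    (hX : 0 ≤ X0) {gm Nm : ℤ → ℕ → ℤ → Matrix ι ι ℝ}
    (hv : ∑ k ∈ Ico 0 K, GW K r2 r1 r3 (k + 1) (pl x0 (k + 1)) (fun n2 n3 n1 =>
      ((2 : ℝ) ^ (k + 1) * 2 ^ (k + 1))⁻¹ * ∑ x' ∈ iv (k + 1) n1, ∑ y ∈ iv (k + 1) n2,
        (β⁻¹ * ((gm x' (k + 1) n3 *ᵥ pB K x sh b x0 (k + 1) x' y) ⬝ᵥ
            (gm x' (k + 1) n3 *ᵥ pB K x sh b x0 (k + 1) x' y))
          + pB K x sh b x0 (k + 1) x' y ⬝ᵥ Nm x' (k + 1) n3 *ᵥ pB K x sh b x0 (k + 1) x' y)) ≤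
      X0) :
    NumB 0 K r1 r2 r3 (pl x0) (pB K x sh b x0) (pC K x sh C x0) β gm Nm
      (4 * q.th s r ^ 2) (EBn q U K x b Q2 Q3 sh pl x0 + X0) := by
  have hD : Dat K (ix K x.2.1) (ix K x.1) (fB b) (QB q U K Q3) (q.CD * (q.Lm * s))
    (q.cP + 2) := datB h hK hB
  obtain ⟨n1, n2⟩ := Ms_if_nonneg hD x0 sh.2.1 sh.1
  have n3 := Cr_nonneg hD (QC q U K Q2) (ix K x.2.2) sh.2.1 sh.1 sh.2.2 pl x0
  refine ⟨?_, ?_, ?_, ?_, ?_⟩
  · intro k a n' m' _ hka haK j hj hj' _ _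
    exact capPB (by positivity) (fun n'' m'' => capSB h sh x0 (by omega) hj hj' n'' m'') hka n' m'
  · intro k hk
    have h1 := enB h hK hB sh x0 hk (iv K r1) (iv K r2)
    unfold EBn
    linarith
  · have h1 := bornB h hK hB sh x0 r1 r2
    unfold EBn
    linarith
  · unfold EBn
    linarith
  · have h1 := crB h hK hB sh x0 r1 r2 r3 pl
    unfold EBn
    linarith

/-- **`NumB` of the flow part** on the shifted plane (the variation is one number). -/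
theorem numB_TF (h : FDs q n ez F1 F2 F3 K x s r U g u v A b C Q1 Q2 Q3 v') (hK : K ≤ n)
    (hB : 0 ≤ q.CD * (q.Lm * s)) (sh : Pt) (j : ℤ) :
    ∃ EB : ℤ → ℝ, (∀ x0, 0 ≤ EB x0) ∧
      (∀ (x0 r1 r2 r3 : ℤ) (β X0 : ℝ) (gm Nm : ℤ → ℕ → ℤ → Matrix ι ι ℝ), 0 ≤ X0 →
        ∑ k ∈ Ico 0 K, GW K r2 r1 r3 (k + 1) (ix (k + 1) (ys (-x0) sh) - j) (fun n2 n3 n1 =>
          ((2 : ℝ) ^ (k + 1) * 2 ^ (k + 1))⁻¹ * ∑ x' ∈ iv (k + 1) n1, ∑ y ∈ iv (k + 1) n2,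
          (β⁻¹ * ((gm x' (k + 1) n3 *ᵥ pB K x sh b x0 (k + 1) x' y) ⬝ᵥ
            (gm x' (k + 1) n3 *ᵥ pB K x sh b x0 (k + 1) x' y))
          + pB K x sh b x0 (k + 1) x' y ⬝ᵥ Nm x' (k + 1) n3 *ᵥ pB K x sh b x0 (k + 1) x' y)) ≤
          X0 →
        NumB 0 K r1 r2 r3 (fun k => ix k (ys (-x0) sh) - j)
          (fun k x' y => shB K (cx K x) sh (b x0) (min k K) x' y)
          (fun k x' z => shC K (cx K x) sh (C x0) (min k K) z x') β gm Nm (4 * q.th s r ^ 2)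
          (EB x0 + X0)) ∧
      ∀ t, ∑ x0 ∈ iv K t, EB x0 ≤ 49 * (q.CD * (q.Lm * s)) * (q.cP + 3) * 8 ^ K := by
  refine ⟨EBn q U K x b Q2 Q3 sh fun x0 k => ix k (ys (-x0) sh) - j, fun x0 => ?_,
    fun x0 r1 r2 r3 β X0 gm Nm hX hv => ?_, fun t => EBn_sum h hK hB sh (hpl_ys sh j) t⟩
  · have hD : Dat K (ix K x.2.1) (ix K x.1) (fB b) (QB q U K Q3) (q.CD * (q.Lm * s))
      (q.cP + 2) := datB h hK hB
    obtain ⟨n1, n2⟩ := Ms_if_nonneg hD x0 sh.2.1 sh.1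
    have n3 := Cr_nonneg hD (QC q U K Q2) (ix K x.2.2) sh.2.1 sh.1 sh.2.2
      (fun x0 k => ix k (ys (-x0) sh) - j) x0
    unfold EBn
    linarith
  · exact numB_one h hK hB sh x0 r1 r2 r3 (fun x0 k => ix k (ys (-x0) sh) - j) hX hv

/-! ### Hub `x1` of `H585` -/

theorem MSb_eq (sh : Pt) (x0 : ℤ) {k : ℕ} (hk : k ≤ K) (x' y : ℤ) :
    H747.MSb K (cx K x) b sh x0 k x' y = Sum.elim (0 : ι → ℝ) (pB K x sh b x0 k x' y) := by
  unfold H747.MSb pB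
  rw [min_eq_left hk]

theorem sum_elim_sq (w : ι → ℝ) : ∑ i : ι ⊕ ι, (Sum.elim (0 : ι → ℝ) w : ι ⊕ ι → ℝ) i ^ 2 =
    w ⬝ᵥ w := by
  rw [Fintype.sum_sum_type, dotProduct]
  simp [sq]

/-- **The masses `MV` of `(0 ; b)`** at one `x0`. -/
theorem MVb_le (h : FDs q n ez F1 F2 F3 K x s r U g u v A b C Q1 Q2 Q3 v') (hK : K ≤ n)
    (hB : 0 ≤ q.CD * (q.Lm * s)) (sh : Pt) (x0 r1 r2 : ℤ) :
    H585.PairRX.MV 0 K r2 r1 (H747.MSb K (cx K x) b sh x0) ≤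
      En K (ix K x.2.1) (ix K x.1) (fB b) (QB q U K Q3) x0 +
        3 * Bo K (ix K x.2.1) (ix K x.1) (fB b) (QB q U K Q3) sh.2.1 sh.1 x0 := by
  unfold H585.PairRX.MV
  refine add_le_add ?_ (mul_le_mul_of_nonneg_left ?_ (by norm_num))
  · refine le_trans (le_of_eq ?_) (enB h hK hB sh x0 (Nat.zero_le K) (iv K r1) (iv K r2))
    refine sum_congr rfl fun x' _ => sum_congr rfl fun y _ => ?_
    rw [MSb_eq sh x0 (Nat.zero_le K), sum_elim_sq]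
  · refine le_trans ?_ (bornB h hK hB sh x0 r1 r2)
    refine sum_le_sum fun k hk => sum_le_sum fun x' _ => sum_le_sum fun y _ => ?_
    have hkK : k < K := (mem_Ico.1 hk).2
    unfold H38.Q.bP
    by_cases hA : H38.Q.AfC (ι := ι ⊕ ι) k (H747.MSb K (cx K x) b sh x0 k)
        (H747.MSb K (cx K x) b sh x0 (k + 1)) (ix k x') y
    · rw [if_pos hA, MSb_eq sh x0 hkK, sum_elim_sq, if_pos]
      unfold H38.Q.AfC at hA
      push Not at hA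
      obtain ⟨x1, hx1, hne⟩ := hA
      refine ⟨x1, hx1, y, mem_iv.2 rfl, fun e => hne ?_⟩
      rw [MSb_eq sh x0 hkK, MSb_eq sh x0 hkK.le, e]
    · rw [if_neg hA]
      have h0 : (0 : ℝ) ≤ (if Ch (pB K x sh b x0) k (ix k x') (ix k y) then
          pB K x sh b x0 (k + 1) x' y ⬝ᵥ pB K x sh b x0 (k + 1) x' y else 0) := by
        split_ifs
        · exact sum_nonneg fun _ _ => mul_self_nonneg _
        · exact le_rfl
      refine le_trans (le_of_eq ?_) h0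
      simp

/-- **hV1 of `H585.PairRX.RX_BC`** : the masses of `(0 ; b)`, summed over `x0`. -/
theorem MVb_sum (h : FDs q n ez F1 F2 F3 K x s r U g u v A b C Q1 Q2 Q3 v') (hK : K ≤ n)
    (hB : 0 ≤ q.CD * (q.Lm * s)) (sh : Pt) (t r1 r2 : ℤ) :
    ∑ x0 ∈ iv K t, H585.PairRX.MV 0 K r2 r1 (H747.MSb K (cx K x) b sh x0) ≤
      49 * (q.CD * (q.Lm * s)) * (q.cP + 3) * 8 ^ K := by
  have hD : Dat K (ix K x.2.1) (ix K x.1) (fB b) (QB q U K Q3) (q.CD * (q.Lm * s))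
    (q.cP + 2) := datB h hK hB
  have h1 := En_sum hD t
  have h2 := Bo_sum hD sh.2.1 sh.1 t
  have h3 := sum_le_sum fun x0 (_ : x0 ∈ iv K t) => MVb_le (C := C) h hK hB sh x0 r1 r2
  rw [sum_add_distrib, ← mul_sum] at h3
  have h8 : (0 : ℝ) ≤ 8 ^ K := by positivity
  have h9 : 0 ≤ (q.CD * (q.Lm * s)) * 8 ^ K := mul_nonneg hB h8
  nlinarith

/-- **cap of `H585.PairRX.RX_BC`**. -/
theorem cap_PB (h : FDs q n ez F1 F2 F3 K x s r U g u v A b C Q1 Q2 Q3 v') (sh : Pt) (x0 : ℤ)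
    {k : ℕ} (hk : k ≤ K) (n' m' : ℤ) :
    ((4 * q.th s r ^ 2) • (1 : Matrix (Ix k × (ι ⊕ ι)) (Ix k × (ι ⊕ ι)) ℝ) -
      H585.PairR.PB (H747.MSb K (cx K x) b sh x0) k k n' m').PosSemidef := by
  have hc : ∀ n m, CapS (4 * q.th s r ^ 2) k k (H747.MSb K (cx K x) b sh x0 k) n m := by
    intro n m
    have h1 := capSB h sh x0 hk le_rfl (Nat.le_succ k) n m
    intro w
    refine le_trans (le_of_eq ?_) (h1 w)
    refine sum_congr rfl fun x' _ => ?_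
    rw [Fintype.sum_sum_type]
    simp [MSb_eq sh x0 hk]
  have h2 := capPB (by positivity : (0 : ℝ) ≤ 4 * q.th s r ^ 2) hc le_rfl n' m'
  have e : H585.PairR.PB (H747.MSb K (cx K x) b sh x0) k k n' m' =
      Matrix.of fun (i i' : Ix k × (ι ⊕ ι)) => ((2 : ℝ) ^ k * 2 ^ k)⁻¹ * ∑ y ∈ iv k n',
        H747.MSb K (cx K x) b sh x0 k (2 ^ k * m' + val k i.1) y i.2 *
          H747.MSb K (cx K x) b sh x0 k (2 ^ k * m' + val k i'.1) y i'.2 := by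
    ext i i'
    rw [of_apply]
    unfold H585.PairR.PB H297.Ch.Py H297.Ch.sl H43.av
    have e2 := H297.Ch.sqrt_mul_self' k
    have e3 : ∀ a b : ℝ, √((2 : ℝ) ^ k)⁻¹ * a * (√((2 : ℝ) ^ k)⁻¹ * b) =
        ((2 : ℝ) ^ k)⁻¹ * (a * b) := by
      intro a b
      linear_combination a * b * e2
    simp only [e3]
    rw [← mul_sum, mul_inv, mul_assoc]
  rw [e]
  exact h2

end cls

end

end Vale.Agent.P141.H900.Num
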